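import Vale.Agent.P236X.Link
import Vale.Agent.P236C.D.L
import Vale.Agent.P236C.D.Xs26
import Vale.Agent.P236C.D.Xs27
import Vale.Agent.P236C.D.Xs28
import Vale.Agent.P236C.D.Xs29
import Vale.Agent.P236C.D.Xs30
import Vale.Agent.P236C.D.Xs31
import Vale.Agent.P236C.D.Xs32
import Vale.Agent.P236C.D.Xs33

/-!
# P236X: the certificates of exactness, part 14
-/

namespace Vale.Agent.P236X.Ce

open Vale.Agent.P236C.D

/-- the ranks -/
def r26 : ℕ := nat_lit
    4715543786529976530879236156940139449268244826420929573003407128879389741021287916147062256318214711970867627939092037494637085549913919268231855052609347159843925469907390240007657458168048187618610626573800088094024610811660369370209151181577900831449547103259519682700630470783928877287037910170619972310448715371396924774264471780099126383228702887129621121316702938681531670314238943057065845863122195080973756342415437071527182336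

/-- elements with leading terms -/
def gb26_0 : List El := [⟨nat_lit 1, nat_lit 0, nat_lit 0, nat_lit 0, [(nat_lit 1, nat_lit 0,
    nat_lit 0, nat_lit 0, nat_lit 0, nat_lit 0)]⟩]

/-- elements with leading terms -/
def gb26_1 : List El := [⟨nat_lit 1, nat_lit 0, nat_lit 0, nat_lit 0, [(nat_lit 1, nat_lit 1,
    nat_lit 0, nat_lit 0, nat_lit 0, nat_lit 0)]⟩]

/-- elements with leading terms -/
def gb26_2 : List El := [⟨nat_lit 1, nat_lit 0, nat_lit 0, nat_lit 0, [(nat_lit 1, nat_lit 2,
    nat_lit 0, nat_lit 0, nat_lit 0, nat_lit 0)]⟩]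

/-- elements with leading terms -/
def gb26_3 : List El := [⟨nat_lit 1, nat_lit 0, nat_lit 0, nat_lit 0, [(nat_lit 1, nat_lit 3,
    nat_lit 0, nat_lit 0, nat_lit 0, nat_lit 0)]⟩]

/-- elements with leading terms -/
def gb26_4 : List El := [⟨nat_lit 1, nat_lit 0, nat_lit 0, nat_lit 0, [(nat_lit 1, nat_lit 4,
    nat_lit 0, nat_lit 0, nat_lit 0, nat_lit 0)]⟩]

/-- elements with leading terms -/
def gb26_5 : List El := [⟨nat_lit 2, nat_lit 0, nat_lit 0, nat_lit 0, [(nat_lit 1, nat_lit 5,
    nat_lit 0, nat_lit 0, nat_lit 0, nat_lit 0)]⟩]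

/-- elements with leading terms -/
def gb26_6 : List El := [⟨nat_lit 2, nat_lit 0, nat_lit 0, nat_lit 0, [(nat_lit 1, nat_lit 6,
    nat_lit 0, nat_lit 0, nat_lit 0, nat_lit 0)]⟩]

/-- elements with leading terms -/
def gb26_7 : List El := [⟨nat_lit 2, nat_lit 0, nat_lit 0, nat_lit 0, [(nat_lit 1, nat_lit 7,
    nat_lit 0, nat_lit 0, nat_lit 0, nat_lit 0)]⟩]

/-- elements with leading terms -/
def gb26_8 : List El := [⟨nat_lit 2, nat_lit 0, nat_lit 0, nat_lit 0, [(nat_lit 1, nat_lit 8,
    nat_lit 0, nat_lit 0, nat_lit 0, nat_lit 0)]⟩]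

/-- elements with leading terms -/
def gb26_9 : List El := [⟨nat_lit 2, nat_lit 0, nat_lit 0, nat_lit 0, [(nat_lit 1, nat_lit 9,
    nat_lit 0, nat_lit 0, nat_lit 0, nat_lit 0)]⟩]

/-- elements with leading terms -/
def gb26_10 : List El := [⟨nat_lit 1, nat_lit 0, nat_lit 0, nat_lit 0, [(nat_lit 1, nat_lit 10,
    nat_lit 0, nat_lit 0, nat_lit 0, nat_lit 0)]⟩]

/-- elements with leading terms -/
def gb26_11 : List El := [⟨nat_lit 1, nat_lit 0, nat_lit 0, nat_lit 0, [(nat_lit 1, nat_lit 11,
    nat_lit 0, nat_lit 0, nat_lit 0, nat_lit 0)]⟩]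

/-- elements with leading terms -/
def gb26_12 : List El := [⟨nat_lit 2, nat_lit 0, nat_lit 0, nat_lit 0, [(nat_lit 1, nat_lit 12,
    nat_lit 0, nat_lit 0, nat_lit 0, nat_lit 0)]⟩]

/-- elements with leading terms -/
def gb26_13 : List El := [⟨nat_lit 2, nat_lit 0, nat_lit 0, nat_lit 0, [(nat_lit 1, nat_lit 13,
    nat_lit 0, nat_lit 0, nat_lit 0, nat_lit 0)]⟩]

/-- elements with leading terms -/
def gb26_14 : List El := [⟨nat_lit 2, nat_lit 0, nat_lit 0, nat_lit 0, [(nat_lit 1, nat_lit 14,
    nat_lit 0, nat_lit 0, nat_lit 0, nat_lit 0)]⟩]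

/-- elements with leading terms -/
def gb26_15 : List El := [⟨nat_lit 2, nat_lit 0, nat_lit 0, nat_lit 0, [(nat_lit 1, nat_lit 15,
    nat_lit 0, nat_lit 0, nat_lit 0, nat_lit 0)]⟩]

/-- elements with leading terms -/
def gb26_16 : List El := [⟨nat_lit 1, nat_lit 0, nat_lit 0, nat_lit 0, [(nat_lit 1, nat_lit 16,
    nat_lit 0, nat_lit 0, nat_lit 0, nat_lit 0)]⟩]

/-- elements with leading terms -/
def gb26_17 : List El := [⟨nat_lit 2, nat_lit 0, nat_lit 0, nat_lit 0, [(nat_lit 1, nat_lit 17,
    nat_lit 0, nat_lit 0, nat_lit 0, nat_lit 0)]⟩]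

/-- elements with leading terms -/
def gb26_18 : List El := [⟨nat_lit 1, nat_lit 0, nat_lit 0, nat_lit 0, [(nat_lit 1, nat_lit 18,
    nat_lit 0, nat_lit 0, nat_lit 0, nat_lit 0)]⟩]

/-- elements with leading terms -/
def gb26_19 : List El := [⟨nat_lit 1, nat_lit 0, nat_lit 0, nat_lit 0, [(nat_lit 1, nat_lit 19,
    nat_lit 0, nat_lit 0, nat_lit 0, nat_lit 0)]⟩]

/-- elements with leading terms -/
def gb26_20 : List El := [⟨nat_lit 1, nat_lit 0, nat_lit 0, nat_lit 0, [(nat_lit 1, nat_lit 20,
    nat_lit 0, nat_lit 0, nat_lit 0, nat_lit 0)]⟩]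

/-- elements with leading terms -/
def gb26 : List (List El) := [gb26_0, gb26_1, gb26_2, gb26_3, gb26_4, gb26_5, gb26_6, gb26_7,
    gb26_8, gb26_9, gb26_10, gb26_11, gb26_12, gb26_13, gb26_14, gb26_15, gb26_16, gb26_17,
    gb26_18, gb26_19, gb26_20]

/-- values -/
def tb26_0 : List ℕ := [nat_lit 1]

/-- values -/
def tb26_1 : List ℕ := [nat_lit 1, nat_lit 1]

/-- values -/
def tb26_2 : List ℕ := [nat_lit 0, nat_lit 2, nat_lit 1]

/-- values -/
def tb26_3 : List ℕ := [nat_lit 0, nat_lit 0, nat_lit 2, nat_lit 1]

/-- values -/
def tb26_4 : List ℕ := [nat_lit 1, nat_lit 4, nat_lit 0, nat_lit 1, nat_lit 1]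

/-- values -/
def tb26_5 : List ℕ := [nat_lit 130, nat_lit 8, nat_lit 16, nat_lit 2, nat_lit 8, nat_lit 1]

/-- values -/
def tb26_6 : List ℕ := [nat_lit 0, nat_lit 0, nat_lit 0, nat_lit 32, nat_lit 1, nat_lit 9,
    nat_lit 1]

/-- values -/
def tb26_7 : List ℕ := [nat_lit 0, nat_lit 16, nat_lit 0, nat_lit 8, nat_lit 16, nat_lit 2,
    nat_lit 6, nat_lit 1]

/-- values -/
def tb26_8 : List ℕ := [nat_lit 129, nat_lit 36028797018964224, nat_lit 0, nat_lit 0, nat_lit 4,
    nat_lit 8, nat_lit 2, nat_lit 9, nat_lit 1]

/-- values -/
def tb26_9 : List ℕ := [nat_lit 144115188075856896, nat_lit 65, nat_lit 0, nat_lit 32, nat_lit 1,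
    nat_lit 1, nat_lit 4, nat_lit 2, nat_lit 6, nat_lit 1]

/-- values -/
def tb26_10 : List ℕ := [nat_lit 5192296858534827646544894838718464, nat_lit 4755801206503243776,
    nat_lit 65, nat_lit 8, nat_lit 144115188075855904, nat_lit 432345564227567777, nat_lit
    594475150812905476, nat_lit 144115188075858208, nat_lit 144115188075855936, nat_lit
    18014398509482496, nat_lit 1]

/-- values -/
def tb26_11 : List ℕ := [nat_lit 19023204826013241473, nat_lit
    5192296858534828799466399445549316, nat_lit 649037107316853453566312041285648, nat_lit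
    1298074214633707195363000234020864, nat_lit 1188950301625811200, nat_lit 180143985094819860,
    nat_lit 432345564227573824, nat_lit 576460752303423492, nat_lit 162129586585338400, nat_lit
    128, nat_lit 2, nat_lit 1]

/-- values -/
def tb26_12 : List ℕ := [nat_lit 5846006549323611672814739330865132078623730434113, nat_lit
    5192296858534902586442694283772164, nat_lit 649037107316853597681500117010464, nat_lit
    2596148429267432261009321874161664, nat_lit 2305843009213710336, nat_lit
    649037107316853597681500117008932, nat_lit 324518553658427087071126210217120, nat_lit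
    36028797018964550, nat_lit 72057594037929984, nat_lit 144115188075857920, nat_lit 2, nat_lit
    4, nat_lit 1]

/-- values -/
def tb26_13 : List ℕ := [nat_lit 20769187434139900809932344022534144, nat_lit
    18446744073709551616, nat_lit 0, nat_lit 9223372036854775808, nat_lit 288230376151711744,
    nat_lit 1298074214633709501206009447727616, nat_lit 649037107316862712967145914893572,
    nat_lit 288230376151718016, nat_lit 576460752303423488, nat_lit 144115188075856896, nat_lit
    32, nat_lit 2, nat_lit 9, nat_lit 1]

/-- values -/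
def tb26_14 : List ℕ := [nat_lit 73786976294838222848, nat_lit
    42187411975596074145107866311329824, nat_lit 0, nat_lit 0, nat_lit 4611686018427455488,
    nat_lit 1298074214633744160908741691113504, nat_lit 576460752303456512, nat_lit
    11691344632653841680, nat_lit 1024, nat_lit 576460752303423488, nat_lit 8, nat_lit 32,
    nat_lit 2, nat_lit 6, nat_lit 1]

/-- values -/
def tb26_15 : List ℕ := [nat_lit 11692013098647389499128951777395256984223558664321, nat_lit
    399583814440447005616844445413525287135820562261116307309972090832047582568929999375399181192126995692484044477997123583291734076557281098641441024,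
    nat_lit 324518553658426798840750058569728, nat_lit 2596148429267451284214147887144960,
    nat_lit 10384593717069655275075391167955456, nat_lit 649037107316860443152933720293888,
    nat_lit 2920666982925845513022392802346000, nat_lit 2596148429267414102495624316342272,
    nat_lit 649037107316865072853350657066260, nat_lit 288230376151711744, nat_lit 0, nat_lit 4,
    nat_lit 4, nat_lit 1, nat_lit 6, nat_lit 1]

/-- values -/
def tb26_16 : List ℕ := [nat_lit 167451573687748228490057406339874816, nat_lit
    10384593717069657562904001872166912, nat_lit 324518553658731098060372228243456, nat_lit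
    11692013098647223345629478661748710901321169895552, nat_lit
    5192296858534829934373505542946820, nat_lit 649037107316853525623906079244576, nat_lit
    42153692512187977792, nat_lit 2596148429267416732597806700724224, nat_lit
    649037107316862748995942933890048, nat_lit 288230376151715840, nat_lit 128, nat_lit 0,
    nat_lit 0, nat_lit 0, nat_lit 0, nat_lit 0, nat_lit 1]

/-- values -/
def tb26_17 : List ℕ := [nat_lit
    1598335257761788022467377781654101148543282249044465229239888363328190330275719997501596724768507982769936177911947280476852316407075568759305470976,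
    nat_lit 5846006549323697345712905157919656022147707707457, nat_lit
    10384593717069655257060992658456576, nat_lit 42187411975595474481810282674978848, nat_lit
    1298074214633725930337450095280128, nat_lit 6490371073168626787397887468774016, nat_lit
    10709112270728092522267276726009856, nat_lit 324518553658427447359096399923296, nat_lit
    2596148429267416732597806700728896, nat_lit 649037107316865126896546185512232, nat_lit 16,
    nat_lit 1, nat_lit 2, nat_lit 8, nat_lit 1, nat_lit 6, nat_lit 0, nat_lit 1]

/-- values -/
def tb26_18 : List ℕ := [nat_lit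
    799167628880894011233688890827050574271641124522232614619944181664095165137859998750798362384253944616915694367121633836102960690073950188396872704,
    nat_lit 5846006549323777826314212447729451500767101063233, nat_lit
    199791907220223502808422222706762643567910281130558153654986045416023791284464999687699590596063532922281318180668598680081852340886483840056426500,
    nat_lit 649037107316853453566312041283584, nat_lit
    5846006549323614268963168598279522804624198475841, nat_lit 18482772870728532480, nat_lit
    1242993497154356228, nat_lit 324518553658449857270842195454034, nat_lit 1477180677777555720,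
    nat_lit 10448351135499568144, nat_lit 0, nat_lit 128, nat_lit 0, nat_lit 0, nat_lit 0,
    nat_lit 0, nat_lit 2, nat_lit 0, nat_lit 1]

/-- values -/
def tb26_19 : List ℕ := [nat_lit
    399583814440447005616844445413525287135820562261116307309972090832047582568929999375399181192126995692484044477997123583291743447467241746075763208,
    nat_lit
    799167628880894011233688890827050574271641124522232614619944181664095165137859998750798362384253944616915694367101513685776137947088861372623226880,
    nat_lit 5846006549323777826314212446567018393747247341632, nat_lit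
    46768052394588903767111631716723887642572178358792, nat_lit
    21418224541456763630985880994316288, nat_lit 23689854417065178725286500066534432, nat_lit
    12980742146337069683815790145454080, nat_lit 10384593717069656427996895774837016, nat_lit
    2596148429267423758213225398798337, nat_lit 2596148429267416138122655887786496, nat_lit
    36028797018964488, nat_lit 16, nat_lit 65, nat_lit 0, nat_lit 24, nat_lit 1, nat_lit 0,
    nat_lit 8, nat_lit 1, nat_lit 1]

/-- values -/
def tb26_20 : List ℕ := [nat_lit
    6393341031047152089869511126616404594173128996177860916959553453312761321102879990006386899074031556935325554936725138513828647519776014381198344321,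
    nat_lit 46768052394589225689516860875965375400058963378688, nat_lit
    187072209578355615068446526866895550570288709109776, nat_lit
    1298074214636086537118132614991874, nat_lit 10384593717069802831013582335934468, nat_lit
    371240724483404890384, nat_lit 22067261648773064258690734052349984, nat_lit
    11682667931703401363524773373575428, nat_lit 5841333965851688107712227068414244, nat_lit
    1622592768292142857287816957728912, nat_lit 66, nat_lit 18014398509482500, nat_lit
    18014398509482020, nat_lit 32, nat_lit 4, nat_lit 8, nat_lit 4, nat_lit 2, nat_lit 0, nat_lit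
    2, nat_lit 1]

/-- values -/
def tb26 : List (List ℕ) := [tb26_0, tb26_1, tb26_2, tb26_3, tb26_4, tb26_5, tb26_6, tb26_7,
    tb26_8, tb26_9, tb26_10, tb26_11, tb26_12, tb26_13, tb26_14, tb26_15, tb26_16, tb26_17,
    tb26_18, tb26_19, tb26_20]

theorem v26 : chkV 90 ds26 ds27 xs26 tb26 = true := by decide +kernel

theorem p26 : chkP ds26 ds27 tb26 gb26 = true := by decide +kernel

theorem c26 : chkC 90 ds26 gb26 r26 = true := by decide +kernel

theorem lv26 : LvOk 90 ds26 ds27 xs26 r26 := ⟨_, _, v26, p26, c26⟩

/-- the ranks -/
def r27 : ℕ := nat_lit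
    3802856335003485621527796432653066233067280523075451873818570434711199618036884560121221413622568570033362977249097190741799746850065094295200625062547340658486685590550046486947645889386507393304503894923653141337268809568684285316744210572623059519364958882561122307404594485066850553574896931887967495175823963801252712359977255642427644442391859141361270886813166089703397163808893659200599828275354465173486490083675056407800971264

/-- elements with leading terms -/
def gb27_0 : List El := [⟨nat_lit 2, nat_lit 0, nat_lit 0, nat_lit 0, [(nat_lit 1, nat_lit 0,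
    nat_lit 0, nat_lit 0, nat_lit 0, nat_lit 0)]⟩]

/-- elements with leading terms -/
def gb27_1 : List El := [⟨nat_lit 2, nat_lit 0, nat_lit 0, nat_lit 0, [(nat_lit 1, nat_lit 1,
    nat_lit 0, nat_lit 0, nat_lit 0, nat_lit 0)]⟩]

/-- elements with leading terms -/
def gb27_2 : List El := [⟨nat_lit 2, nat_lit 0, nat_lit 0, nat_lit 0, [(nat_lit 1, nat_lit 2,
    nat_lit 0, nat_lit 0, nat_lit 0, nat_lit 0)]⟩]

/-- elements with leading terms -/
def gb27_3 : List El := [⟨nat_lit 2, nat_lit 0, nat_lit 0, nat_lit 0, [(nat_lit 1, nat_lit 3,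
    nat_lit 0, nat_lit 0, nat_lit 0, nat_lit 0)]⟩]

/-- elements with leading terms -/
def gb27_4 : List El := [⟨nat_lit 2, nat_lit 0, nat_lit 0, nat_lit 0, [(nat_lit 1, nat_lit 4,
    nat_lit 0, nat_lit 0, nat_lit 0, nat_lit 0)]⟩]

/-- elements with leading terms -/
def gb27_5 : List El := [⟨nat_lit 1, nat_lit 0, nat_lit 0, nat_lit 0, [(nat_lit 1, nat_lit 5,
    nat_lit 0, nat_lit 0, nat_lit 0, nat_lit 0)]⟩]

/-- elements with leading terms -/
def gb27_6 : List El := [⟨nat_lit 1, nat_lit 0, nat_lit 0, nat_lit 0, [(nat_lit 1, nat_lit 6,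
    nat_lit 0, nat_lit 0, nat_lit 0, nat_lit 0)]⟩]

/-- elements with leading terms -/
def gb27_7 : List El := [⟨nat_lit 1, nat_lit 0, nat_lit 0, nat_lit 0, [(nat_lit 1, nat_lit 7,
    nat_lit 0, nat_lit 0, nat_lit 0, nat_lit 0)]⟩]

/-- elements with leading terms -/
def gb27_8 : List El := [⟨nat_lit 1, nat_lit 0, nat_lit 0, nat_lit 0, [(nat_lit 1, nat_lit 8,
    nat_lit 0, nat_lit 0, nat_lit 0, nat_lit 0)]⟩]

/-- elements with leading terms -/
def gb27_9 : List El := [⟨nat_lit 1, nat_lit 0, nat_lit 0, nat_lit 0, [(nat_lit 1, nat_lit 9,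
    nat_lit 0, nat_lit 0, nat_lit 0, nat_lit 0)]⟩]

/-- elements with leading terms -/
def gb27_10 : List El := [⟨nat_lit 2, nat_lit 0, nat_lit 0, nat_lit 0, [(nat_lit 1, nat_lit 10,
    nat_lit 0, nat_lit 0, nat_lit 0, nat_lit 0)]⟩]

/-- elements with leading terms -/
def gb27_11 : List El := [⟨nat_lit 2, nat_lit 0, nat_lit 0, nat_lit 0, [(nat_lit 1, nat_lit 11,
    nat_lit 0, nat_lit 0, nat_lit 0, nat_lit 0)]⟩]

/-- elements with leading terms -/
def gb27_12 : List El := [⟨nat_lit 1, nat_lit 0, nat_lit 0, nat_lit 0, [(nat_lit 1, nat_lit 12,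
    nat_lit 0, nat_lit 0, nat_lit 0, nat_lit 0)]⟩]

/-- elements with leading terms -/
def gb27_13 : List El := [⟨nat_lit 1, nat_lit 0, nat_lit 0, nat_lit 0, [(nat_lit 1, nat_lit 13,
    nat_lit 0, nat_lit 0, nat_lit 0, nat_lit 0)]⟩]

/-- elements with leading terms -/
def gb27_14 : List El := [⟨nat_lit 1, nat_lit 0, nat_lit 0, nat_lit 0, [(nat_lit 1, nat_lit 14,
    nat_lit 0, nat_lit 0, nat_lit 0, nat_lit 0)]⟩]

/-- elements with leading terms -/
def gb27_15 : List El := [⟨nat_lit 1, nat_lit 0, nat_lit 0, nat_lit 0, [(nat_lit 1, nat_lit 15,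
    nat_lit 0, nat_lit 0, nat_lit 0, nat_lit 0)]⟩]

/-- elements with leading terms -/
def gb27_16 : List El := [⟨nat_lit 2, nat_lit 0, nat_lit 0, nat_lit 0, [(nat_lit 1, nat_lit 16,
    nat_lit 0, nat_lit 0, nat_lit 0, nat_lit 0)]⟩]

/-- elements with leading terms -/
def gb27_17 : List El := [⟨nat_lit 1, nat_lit 0, nat_lit 0, nat_lit 0, [(nat_lit 1, nat_lit 17,
    nat_lit 0, nat_lit 0, nat_lit 0, nat_lit 0)]⟩]

/-- elements with leading terms -/
def gb27_18 : List El := [⟨nat_lit 2, nat_lit 0, nat_lit 0, nat_lit 0, [(nat_lit 1, nat_lit 18,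
    nat_lit 0, nat_lit 0, nat_lit 0, nat_lit 0)]⟩]

/-- elements with leading terms -/
def gb27_19 : List El := [⟨nat_lit 2, nat_lit 0, nat_lit 0, nat_lit 0, [(nat_lit 1, nat_lit 19,
    nat_lit 0, nat_lit 0, nat_lit 0, nat_lit 0)]⟩]

/-- elements with leading terms -/
def gb27 : List (List El) := [gb27_0, gb27_1, gb27_2, gb27_3, gb27_4, gb27_5, gb27_6, gb27_7,
    gb27_8, gb27_9, gb27_10, gb27_11, gb27_12, gb27_13, gb27_14, gb27_15, gb27_16, gb27_17,
    gb27_18, gb27_19, []]

/-- values -/
def tb27_0 : List ℕ := [nat_lit 1]

/-- values -/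
def tb27_1 : List ℕ := [nat_lit 9, nat_lit 1]

/-- values -/
def tb27_2 : List ℕ := [nat_lit 2, nat_lit 6, nat_lit 1]

/-- values -/
def tb27_3 : List ℕ := [nat_lit 4, nat_lit 1, nat_lit 6, nat_lit 1]

/-- values -/
def tb27_4 : List ℕ := [nat_lit 5, nat_lit 24, nat_lit 2, nat_lit 9, nat_lit 1]

/-- values -/
def tb27_5 : List ℕ := [nat_lit 81, nat_lit 8, nat_lit 40, nat_lit 1, nat_lit 4, nat_lit 1]

/-- values -/
def tb27_6 : List ℕ := [nat_lit 36028797018963992, nat_lit 16, nat_lit 8, nat_lit 36, nat_lit 2,
    nat_lit 1, nat_lit 1]

/-- values -/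
def tb27_7 : List ℕ := [nat_lit 18014398509482244, nat_lit 0, nat_lit 0, nat_lit 0, nat_lit 8,
    nat_lit 0, nat_lit 2, nat_lit 1]

/-- values -/
def tb27_8 : List ℕ := [nat_lit 72057594037928002, nat_lit 18014398509482496, nat_lit 16, nat_lit
    32, nat_lit 8, nat_lit 0, nat_lit 0, nat_lit 1, nat_lit 1]

/-- values -/
def tb27_9 : List ℕ := [nat_lit 144115188075856408, nat_lit 130, nat_lit 8, nat_lit 8, nat_lit
    18, nat_lit 1, nat_lit 0, nat_lit 0, nat_lit 2, nat_lit 1]

/-- values -/
def tb27_10 : List ℕ := [nat_lit 324518553658438364084593146021896, nat_lit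
    324518553658463764386491515536450, nat_lit 612489549322387529, nat_lit 144115188075857444,
    nat_lit 360287970189639712, nat_lit 288230376151711810, nat_lit 36028797018964232, nat_lit
    72057594037927952, nat_lit 128, nat_lit 36028797018964224, nat_lit 1]

/-- values -/
def tb27_11 : List ℕ := [nat_lit 12980742146337181481172939990913157, nat_lit
    10709112270728092450209682688066072, nat_lit 649037107316872332655949978412162, nat_lit
    2596148429267414390726000468037632, nat_lit 324518553658432671534664149665056, nat_lit
    144115188075857952, nat_lit 288230376151720064, nat_lit 8, nat_lit 2064, nat_lit 64, nat_lit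
    6, nat_lit 1]

/-- values -/
def tb27_12 : List ℕ := [nat_lit 11692013098647244763854020117917650563607145611426, nat_lit
    12980742146337217239753981312401412, nat_lit 324518553658437193148690029775124, nat_lit
    432345564227635200, nat_lit 1298074214633708348284504840896512, nat_lit 1188950301625843712,
    nat_lit 324518553658426798840750058504224, nat_lit 66, nat_lit 256, nat_lit
    144115188075857920, nat_lit 1, nat_lit 8, nat_lit 1]

/-- values -/
def tb27_13 : List ℕ := [nat_lit
    199791907220223502808422222706762643567910281130558153654986045416023791284464999687699590596063486154228923591801502165013537910930328591554218020,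
    nat_lit 21093705987797737240905141337524256, nat_lit 7788445287802316688938318600093956,
    nat_lit 4611686018427421696, nat_lit 1947111321950565116500142626834448, nat_lit
    1298074214633707483593376385728512, nat_lit 1170935903116345604, nat_lit 0, nat_lit
    288230376151711744, nat_lit 512, nat_lit 36, nat_lit 1, nat_lit 1, nat_lit 1]

/-- values -/
def tb27_14 : List ℕ := [nat_lit
    399583814440447005616844445413525287135820562261116307309972090832047582568929999375399181192127019076510241772519103146697812632238851168099402248,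
    nat_lit 10384593717069655257060992658440192, nat_lit 36893488147419103232, nat_lit
    10384593717069692150549140077543424, nat_lit 9223372036854841344, nat_lit 0, nat_lit 0,
    nat_lit 0, nat_lit 0, nat_lit 0, nat_lit 0, nat_lit 4, nat_lit 0, nat_lit 2, nat_lit 1]

/-- values -/
def tb27_15 : List ℕ := [nat_lit
    799167628880894011233688890827050574271641124522232614619944181664095165137859998750798362384253950462922243690691768275974015609604193875720210498,
    nat_lit
    199791907220223502808422222706762643567910281130558153654986045416023791284464999687699590596063532922281318180834752179554966842887757442507096576,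
    nat_lit 31153781151209265602831769793495056, nat_lit 1298074214633744232966335729047552,
    nat_lit 1298074214633744413110320823812352, nat_lit 10384593717069657562904001872167424,
    nat_lit 649037107316862676938348895994912, nat_lit 4096, nat_lit 2323857407723208964, nat_lit
    2048, nat_lit 16, nat_lit 8, nat_lit 0, nat_lit 0, nat_lit 2, nat_lit 1]

/-- values -/
def tb27_16 : List ℕ := [nat_lit 760671489775353541481905054283727368, nat_lit
    5841333965852126109797586613405696, nat_lit 167776092241406950220630553637431296, nat_lit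
    199791907220223502808422222706762643567910281130558153654986045416023791284464999687699590596063497846242022239006350236933669245133791155609174656,
    nat_lit 11033630824386515628156332340757012, nat_lit 324518553658435950155192875352080,
    nat_lit 288230376151720064, nat_lit 1170935903116345344, nat_lit
    324518553658431482584362523822080, nat_lit 576460752303431680, nat_lit 18014398509482112,
    nat_lit 0, nat_lit 0, nat_lit 0, nat_lit 0, nat_lit 0, nat_lit 1]

/-- values -/
def tb27_17 : List ℕ := [nat_lit
    1598335257761788022467377781654101148543282249044465229239888363328190330275719997501596724768507936001883783323417358739035107494955972311960879640,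
    nat_lit 11692013098647390148166059094843906277288884836482, nat_lit
    172643870546283204845461996954451976, nat_lit 31802818258525828592236514947187216, nat_lit
    2920666982925882622683322335234048, nat_lit 37181718523570823296, nat_lit
    2305843009213727232, nat_lit 9223372036854907936, nat_lit 2596148429267414390726000468037696,
    nat_lit 2341871806232690696, nat_lit 4, nat_lit 18, nat_lit 2, nat_lit 0, nat_lit 0, nat_lit
    2, nat_lit 0, nat_lit 1]

/-- values -/
def tb27_18 : List ℕ := [nat_lit
    7991676288808940112336888908270505742716411245222326146199441816640951651378599987507983623842539633241366522026561731889466319452987844937218663552,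
    nat_lit
    199791907220223502808422222706762643567910281130558153654986045416023791284464999687699590596063515384261670210338531105356371751135841983764124225,
    nat_lit
    199791907220223502808422222706762643567910281130558153654986045416023791284464999687699590596063532922281318180715653870362324807718773326354597904,
    nat_lit 5846006549323696696675797839285875479940581037137, nat_lit
    399583814440447005616844445413525287135820562261116307309972090832047582568929999375399181192126978154464396507156912842215206747495617356582133833,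
    nat_lit 5192296858534829952387904052428808, nat_lit 4683743612465446944, nat_lit
    1298074214633744377081523804835969, nat_lit 18014398509515268, nat_lit 4755801206503245856,
    nat_lit 64, nat_lit 18014398509482112, nat_lit 0, nat_lit 0, nat_lit 0, nat_lit 0, nat_lit 6,
    nat_lit 0, nat_lit 1]

/-- values -/
def tb27_19 : List ℕ := [nat_lit
    998959536101117514042111113533813217839551405652790768274930227080118956422324998438497952980317477539197012548439918660608988282896674437442192664,
    nat_lit 105228117887825199954019198136392748868235057300642, nat_lit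
    399583814440447005616844445413525287135820562261116307309972090832047582568929999375399181192127024922516791096881062857495428430394456840941379652,
    nat_lit
    998959536101117514042111113533813217839551405652790768274930227080118956422324998438497952980317430771144617958876080810836026651905802456174593056,
    nat_lit 5846006549323611997333292989296830835768368175201, nat_lit
    1298074214633744088851147653124096, nat_lit 147573952589676445696, nat_lit
    9295429630892771344, nat_lit 2596148429267432837470074177585154, nat_lit 36028797018980608,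
    nat_lit 144115188075856144, nat_lit 80, nat_lit 130, nat_lit 8, nat_lit 0, nat_lit 2, nat_lit
    2, nat_lit 4, nat_lit 9, nat_lit 1]

/-- values -/
def tb27 : List (List ℕ) := [tb27_0, tb27_1, tb27_2, tb27_3, tb27_4, tb27_5, tb27_6, tb27_7,
    tb27_8, tb27_9, tb27_10, tb27_11, tb27_12, tb27_13, tb27_14, tb27_15, tb27_16, tb27_17,
    tb27_18, tb27_19]

theorem v27 : chkV 90 ds27 ds28 xs27 tb27 = true := by decide +kernel

theorem p27 : chkP ds27 ds28 tb27 gb27 = true := by decide +kernel

theorem c27 : chkC 90 ds27 gb27 r27 = true := by decide +kernel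

theorem lv27 : LvOk 90 ds27 ds28 xs27 r27 := ⟨_, _, v27, p27, c27⟩

/-- the ranks -/
def r28 : ℕ := nat_lit
    4046240336245644424344703459731787538104899359187557743079150179906397628045967533498276696851630238568563160890687494783096858576438146036227882122116608008786285416931840014894735727718184564815206712435573543590878517044045397594330164450773156932620763037116976408465587997488266533639658039687587406039437322207918553953312977621148150240038923134394347152038794773124493103523540297643542570182689776068885116106303605863457226752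

/-- elements with leading terms -/
def gb28_0 : List El := [⟨nat_lit 1, nat_lit 0, nat_lit 0, nat_lit 0, [(nat_lit 1, nat_lit 0,
    nat_lit 0, nat_lit 0, nat_lit 0, nat_lit 0)]⟩]

/-- elements with leading terms -/
def gb28_1 : List El := [⟨nat_lit 1, nat_lit 0, nat_lit 0, nat_lit 0, [(nat_lit 1, nat_lit 1,
    nat_lit 0, nat_lit 0, nat_lit 0, nat_lit 0)]⟩]

/-- elements with leading terms -/
def gb28_2 : List El := [⟨nat_lit 1, nat_lit 0, nat_lit 0, nat_lit 0, [(nat_lit 1, nat_lit 2,
    nat_lit 0, nat_lit 0, nat_lit 0, nat_lit 0)]⟩]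

/-- elements with leading terms -/
def gb28_3 : List El := [⟨nat_lit 1, nat_lit 0, nat_lit 0, nat_lit 0, [(nat_lit 1, nat_lit 3,
    nat_lit 0, nat_lit 0, nat_lit 0, nat_lit 0)]⟩]

/-- elements with leading terms -/
def gb28_4 : List El := [⟨nat_lit 1, nat_lit 0, nat_lit 0, nat_lit 0, [(nat_lit 1, nat_lit 4,
    nat_lit 0, nat_lit 0, nat_lit 0, nat_lit 0)]⟩]

/-- elements with leading terms -/
def gb28_5 : List El := [⟨nat_lit 2, nat_lit 0, nat_lit 0, nat_lit 0, [(nat_lit 1, nat_lit 5,
    nat_lit 0, nat_lit 0, nat_lit 0, nat_lit 0)]⟩]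

/-- elements with leading terms -/
def gb28_6 : List El := [⟨nat_lit 2, nat_lit 0, nat_lit 0, nat_lit 0, [(nat_lit 1, nat_lit 6,
    nat_lit 0, nat_lit 0, nat_lit 0, nat_lit 0)]⟩]

/-- elements with leading terms -/
def gb28_7 : List El := [⟨nat_lit 2, nat_lit 0, nat_lit 0, nat_lit 0, [(nat_lit 1, nat_lit 7,
    nat_lit 0, nat_lit 0, nat_lit 0, nat_lit 0)]⟩]

/-- elements with leading terms -/
def gb28_8 : List El := [⟨nat_lit 2, nat_lit 0, nat_lit 0, nat_lit 0, [(nat_lit 1, nat_lit 8,
    nat_lit 0, nat_lit 0, nat_lit 0, nat_lit 0)]⟩]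

/-- elements with leading terms -/
def gb28_9 : List El := [⟨nat_lit 2, nat_lit 0, nat_lit 0, nat_lit 0, [(nat_lit 1, nat_lit 9,
    nat_lit 0, nat_lit 0, nat_lit 0, nat_lit 0)]⟩]

/-- elements with leading terms -/
def gb28_10 : List El := [⟨nat_lit 1, nat_lit 0, nat_lit 0, nat_lit 0, [(nat_lit 1, nat_lit 10,
    nat_lit 0, nat_lit 0, nat_lit 0, nat_lit 0)]⟩]

/-- elements with leading terms -/
def gb28_11 : List El := [⟨nat_lit 1, nat_lit 0, nat_lit 0, nat_lit 0, [(nat_lit 1, nat_lit 11,
    nat_lit 0, nat_lit 0, nat_lit 0, nat_lit 0)]⟩]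

/-- elements with leading terms -/
def gb28_12 : List El := [⟨nat_lit 2, nat_lit 0, nat_lit 0, nat_lit 0, [(nat_lit 1, nat_lit 12,
    nat_lit 0, nat_lit 0, nat_lit 0, nat_lit 0)]⟩]

/-- elements with leading terms -/
def gb28_13 : List El := [⟨nat_lit 2, nat_lit 0, nat_lit 0, nat_lit 0, [(nat_lit 1, nat_lit 13,
    nat_lit 0, nat_lit 0, nat_lit 0, nat_lit 0)]⟩]

/-- elements with leading terms -/
def gb28_14 : List El := [⟨nat_lit 2, nat_lit 0, nat_lit 0, nat_lit 0, [(nat_lit 1, nat_lit 14,
    nat_lit 0, nat_lit 0, nat_lit 0, nat_lit 0)]⟩]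

/-- elements with leading terms -/
def gb28_15 : List El := [⟨nat_lit 2, nat_lit 0, nat_lit 0, nat_lit 0, [(nat_lit 1, nat_lit 15,
    nat_lit 0, nat_lit 0, nat_lit 0, nat_lit 0)]⟩]

/-- elements with leading terms -/
def gb28_16 : List El := [⟨nat_lit 1, nat_lit 0, nat_lit 0, nat_lit 0, [(nat_lit 1, nat_lit 16,
    nat_lit 0, nat_lit 0, nat_lit 0, nat_lit 0)]⟩]

/-- elements with leading terms -/
def gb28_17 : List El := [⟨nat_lit 2, nat_lit 0, nat_lit 0, nat_lit 0, [(nat_lit 1, nat_lit 17,
    nat_lit 0, nat_lit 0, nat_lit 0, nat_lit 0)]⟩]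

/-- elements with leading terms -/
def gb28_18 : List El := [⟨nat_lit 1, nat_lit 0, nat_lit 0, nat_lit 0, [(nat_lit 1, nat_lit 18,
    nat_lit 0, nat_lit 0, nat_lit 0, nat_lit 0)]⟩]

/-- elements with leading terms -/
def gb28 : List (List El) := [gb28_0, gb28_1, gb28_2, gb28_3, gb28_4, gb28_5, gb28_6, gb28_7,
    gb28_8, gb28_9, gb28_10, gb28_11, gb28_12, gb28_13, gb28_14, gb28_15, gb28_16, gb28_17,
    gb28_18, []]

/-- values -/
def tb28_0 : List ℕ := [nat_lit 1]

/-- values -/
def tb28_1 : List ℕ := [nat_lit 1, nat_lit 1]

/-- values -/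
def tb28_2 : List ℕ := [nat_lit 0, nat_lit 2, nat_lit 1]

/-- values -/
def tb28_3 : List ℕ := [nat_lit 0, nat_lit 0, nat_lit 2, nat_lit 1]

/-- values -/
def tb28_4 : List ℕ := [nat_lit 1, nat_lit 4, nat_lit 0, nat_lit 1, nat_lit 1]

/-- values -/
def tb28_5 : List ℕ := [nat_lit 130, nat_lit 0, nat_lit 32, nat_lit 2, nat_lit 8, nat_lit 1]

/-- values -/
def tb28_6 : List ℕ := [nat_lit 0, nat_lit 0, nat_lit 4, nat_lit 32, nat_lit 1, nat_lit 9,
    nat_lit 1]

/-- values -/
def tb28_7 : List ℕ := [nat_lit 18014398509482244, nat_lit 0, nat_lit 0, nat_lit 0, nat_lit 0,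
    nat_lit 2, nat_lit 6, nat_lit 1]

/-- values -/
def tb28_8 : List ℕ := [nat_lit 129, nat_lit 36028797018964224, nat_lit 32, nat_lit 0, nat_lit 0,
    nat_lit 8, nat_lit 2, nat_lit 9, nat_lit 1]

/-- values -/
def tb28_9 : List ℕ := [nat_lit 2064, nat_lit 65, nat_lit 4, nat_lit 0, nat_lit 1, nat_lit 1,
    nat_lit 4, nat_lit 2, nat_lit 6, nat_lit 1]

/-- values -/
def tb28_10 : List ℕ := [nat_lit 10384593717069655275075391167938816, nat_lit
    4611686018427389984, nat_lit 288230376151711809, nat_lit 8, nat_lit 144115188075856928,
    nat_lit 432345564227569825, nat_lit 18014398509482244, nat_lit 288, nat_lit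
    144115188075855936, nat_lit 18014398509482496, nat_lit 1]

/-- values -/
def tb28_11 : List ℕ := [nat_lit 2596148429267432261009321874428033, nat_lit
    10384593717069656446011294284283908, nat_lit 649037107316858065252330468608032, nat_lit
    2596148429267414102495624316325888, nat_lit 1188950301625811200, nat_lit 180143985094820868,
    nat_lit 576460752303427648, nat_lit 576460752303424004, nat_lit 162129586585338400, nat_lit
    128, nat_lit 2, nat_lit 1]

/-- values -/
def tb28_12 : List ℕ := [nat_lit 5846006549323614268963168598297969548697908019265, nat_lit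
    10384593717069730214973190612975616, nat_lit 324518553658426798840750058635280, nat_lit
    1298074214633707195363000234016768, nat_lit 2305843009213710848, nat_lit
    649037107316853525623906079081000, nat_lit 324518553658426870898344096432256, nat_lit
    36028797018964550, nat_lit 72057594037929984, nat_lit 144115188075857920, nat_lit 2, nat_lit
    4, nat_lit 1]

/-- values -/
def tb28_13 : List ℕ := [nat_lit 324518553659017166708702802149376, nat_lit
    2596148429267414102495624316321792, nat_lit 149915824395909104136, nat_lit 131072, nat_lit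
    2596148429267432549239698025873408, nat_lit 1298074214633709501206009447743488, nat_lit
    649037107316862676938348895963156, nat_lit 648518346341355680, nat_lit 0, nat_lit
    144115188075856896, nat_lit 32, nat_lit 2, nat_lit 9, nat_lit 1]

/-- values -/
def tb28_14 : List ℕ := [nat_lit
    399583814440447005616844445413525287135820562261116307309972090832047582568929999375399181192127019076510241772438622545390522711762908106448716296,
    nat_lit 41862893421937343047047494083150848, nat_lit 0, nat_lit
    5192296858534827628530496329220096, nat_lit 4611686018427388928, nat_lit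
    1947111321950606909904684625035264, nat_lit 1441151880758575104, nat_lit 7007601020188510248,
    nat_lit 288230376151713792, nat_lit 576460752303423488, nat_lit 0, nat_lit 0, nat_lit 2,
    nat_lit 6, nat_lit 1]

/-- values -/
def tb28_15 : List ℕ := [nat_lit 11692013098647225941777907929181548371395347742849, nat_lit
    399583814440447005616844445413525287135820562261116307309972090832047582568929999375399181192126995692484044477991931286433199248928750602312237312,
    nat_lit 41538374868279220619483960232181792, nat_lit 2596148429267432837470074177593344,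
    nat_lit 18014398509515264, nat_lit 5841333965851683459997411622158848, nat_lit
    1298074214633707267420594271946752, nat_lit 1298074214633706907132624082325504, nat_lit
    649037107316865072853350657066260, nat_lit 1024, nat_lit 0, nat_lit 0, nat_lit 4, nat_lit 1,
    nat_lit 6, nat_lit 1]

/-- values -/
def tb28_16 : List ℕ := [nat_lit 84374823951190967698595015211089920, nat_lit
    5192296858534829934373505542914048, nat_lit 324518553658731242175560304166928, nat_lit
    11692013098647225941777907929180971910643044057216, nat_lit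
    5192296858534829934373505542946820, nat_lit 5841333965851690305468845225312544, nat_lit
    2596148429267418786239236781641792, nat_lit 2596148429267416732597806700691456, nat_lit
    649037107316862748995942933890048, nat_lit 288230376151715840, nat_lit 128, nat_lit 0,
    nat_lit 0, nat_lit 0, nat_lit 0, nat_lit 0, nat_lit 1]

/-- values -/
def tb28_17 : List ℕ := [nat_lit 187072209578355615068446526866309866445948430845968, nat_lit
    5846006549323780422462641713962097684545550950465, nat_lit
    5192296858534903721349800382169092, nat_lit 41538374868278621172359158709616672, nat_lit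
    2596148429267414102495624316321792, nat_lit 12980742146337179769805081589850240, nat_lit
    5516815412193255670364743542047232, nat_lit 649037107316881772200768946831456, nat_lit
    2341871806232695360, nat_lit 649037107316865126896546185512232, nat_lit 0, nat_lit 1, nat_lit
    2, nat_lit 8, nat_lit 1, nat_lit 6, nat_lit 0, nat_lit 1]

/-- values -/
def tb28_18 : List ℕ := [nat_lit 187072209578355573530071658587693521945590266594320, nat_lit
    5846006549323694749564475890505841756899543093313, nat_lit
    199791907220223502808422222706762643567910281130558153654986045416023791284464999687699590596063532922281318180663406383223317513257953343727222788,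
    nat_lit 594979553971171098624, nat_lit 5846006549323611672814739330902602027523452969025,
    nat_lit 2596148429267453301826780949118984, nat_lit 5841333965851686936776323952181268,
    nat_lit 1622592768292152440947824002213970, nat_lit 1298074214633709537234806466707720,
    nat_lit 649037107316859290231429113332752, nat_lit 0, nat_lit 128, nat_lit 0, nat_lit 0,
    nat_lit 0, nat_lit 0, nat_lit 2, nat_lit 0, nat_lit 1]

/-- values -/
def tb28 : List (List ℕ) := [tb28_0, tb28_1, tb28_2, tb28_3, tb28_4, tb28_5, tb28_6, tb28_7,
    tb28_8, tb28_9, tb28_10, tb28_11, tb28_12, tb28_13, tb28_14, tb28_15, tb28_16, tb28_17,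
    tb28_18]

theorem v28 : chkV 90 ds28 ds29 xs28 tb28 = true := by decide +kernel

theorem p28 : chkP ds28 ds29 tb28 gb28 = true := by decide +kernel

theorem c28 : chkC 90 ds28 gb28 r28 = true := by decide +kernel

theorem lv28 : LvOk 90 ds28 ds29 xs28 r28 := ⟨_, _, v28, p28, c28⟩

/-- the ranks -/
def r29 : ℕ := nat_lit
    3163978089883592837788605428158464787125355218572470535448102856951986009385883025176731508319248553896308969155904369603730160999773302523441529875972338288299735908392497980616596649070908778051738439716087821652972440838620760588011761077629995078740997483825825162186662092525324540672030406932534185143011230107704056392059813548077809910539942287152861991312743900135686903666619727746547178867423467088964077710778996768548847616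

/-- elements with leading terms -/
def gb29_0 : List El := [⟨nat_lit 2, nat_lit 0, nat_lit 0, nat_lit 0, [(nat_lit 1, nat_lit 0,
    nat_lit 0, nat_lit 0, nat_lit 0, nat_lit 0)]⟩]

/-- elements with leading terms -/
def gb29_1 : List El := [⟨nat_lit 2, nat_lit 0, nat_lit 0, nat_lit 0, [(nat_lit 1, nat_lit 1,
    nat_lit 0, nat_lit 0, nat_lit 0, nat_lit 0)]⟩]

/-- elements with leading terms -/
def gb29_2 : List El := [⟨nat_lit 2, nat_lit 0, nat_lit 0, nat_lit 0, [(nat_lit 1, nat_lit 2,
    nat_lit 0, nat_lit 0, nat_lit 0, nat_lit 0)]⟩]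

/-- elements with leading terms -/
def gb29_3 : List El := [⟨nat_lit 2, nat_lit 0, nat_lit 0, nat_lit 0, [(nat_lit 1, nat_lit 3,
    nat_lit 0, nat_lit 0, nat_lit 0, nat_lit 0)]⟩]

/-- elements with leading terms -/
def gb29_4 : List El := [⟨nat_lit 2, nat_lit 0, nat_lit 0, nat_lit 0, [(nat_lit 1, nat_lit 4,
    nat_lit 0, nat_lit 0, nat_lit 0, nat_lit 0)]⟩]

/-- elements with leading terms -/
def gb29_5 : List El := [⟨nat_lit 1, nat_lit 0, nat_lit 0, nat_lit 0, [(nat_lit 1, nat_lit 5,
    nat_lit 0, nat_lit 0, nat_lit 0, nat_lit 0)]⟩]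

/-- elements with leading terms -/
def gb29_6 : List El := [⟨nat_lit 1, nat_lit 0, nat_lit 0, nat_lit 0, [(nat_lit 1, nat_lit 6,
    nat_lit 0, nat_lit 0, nat_lit 0, nat_lit 0)]⟩]

/-- elements with leading terms -/
def gb29_7 : List El := [⟨nat_lit 1, nat_lit 0, nat_lit 0, nat_lit 0, [(nat_lit 1, nat_lit 7,
    nat_lit 0, nat_lit 0, nat_lit 0, nat_lit 0)]⟩]

/-- elements with leading terms -/
def gb29_8 : List El := [⟨nat_lit 1, nat_lit 0, nat_lit 0, nat_lit 0, [(nat_lit 1, nat_lit 8,
    nat_lit 0, nat_lit 0, nat_lit 0, nat_lit 0)]⟩]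

/-- elements with leading terms -/
def gb29_9 : List El := [⟨nat_lit 1, nat_lit 0, nat_lit 0, nat_lit 0, [(nat_lit 1, nat_lit 9,
    nat_lit 0, nat_lit 0, nat_lit 0, nat_lit 0)]⟩]

/-- elements with leading terms -/
def gb29_10 : List El := [⟨nat_lit 2, nat_lit 0, nat_lit 0, nat_lit 0, [(nat_lit 1, nat_lit 10,
    nat_lit 0, nat_lit 0, nat_lit 0, nat_lit 0)]⟩]

/-- elements with leading terms -/
def gb29_11 : List El := [⟨nat_lit 2, nat_lit 0, nat_lit 0, nat_lit 0, [(nat_lit 1, nat_lit 11,
    nat_lit 0, nat_lit 0, nat_lit 0, nat_lit 0)]⟩]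

/-- elements with leading terms -/
def gb29_12 : List El := [⟨nat_lit 1, nat_lit 0, nat_lit 0, nat_lit 0, [(nat_lit 1, nat_lit 12,
    nat_lit 0, nat_lit 0, nat_lit 0, nat_lit 0)]⟩]

/-- elements with leading terms -/
def gb29_13 : List El := [⟨nat_lit 1, nat_lit 0, nat_lit 0, nat_lit 0, [(nat_lit 1, nat_lit 13,
    nat_lit 0, nat_lit 0, nat_lit 0, nat_lit 0)]⟩]

/-- elements with leading terms -/
def gb29_14 : List El := [⟨nat_lit 1, nat_lit 0, nat_lit 0, nat_lit 0, [(nat_lit 1, nat_lit 14,
    nat_lit 0, nat_lit 0, nat_lit 0, nat_lit 0)]⟩]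

/-- elements with leading terms -/
def gb29_15 : List El := [⟨nat_lit 1, nat_lit 0, nat_lit 0, nat_lit 0, [(nat_lit 1, nat_lit 15,
    nat_lit 0, nat_lit 0, nat_lit 0, nat_lit 0)]⟩]

/-- elements with leading terms -/
def gb29_16 : List El := [⟨nat_lit 2, nat_lit 0, nat_lit 0, nat_lit 0, [(nat_lit 1, nat_lit 16,
    nat_lit 0, nat_lit 0, nat_lit 0, nat_lit 0)]⟩]

/-- elements with leading terms -/
def gb29_17 : List El := [⟨nat_lit 1, nat_lit 0, nat_lit 0, nat_lit 0, [(nat_lit 1, nat_lit 17,
    nat_lit 0, nat_lit 0, nat_lit 0, nat_lit 0)]⟩]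

/-- elements with leading terms -/
def gb29 : List (List El) := [gb29_0, gb29_1, gb29_2, gb29_3, gb29_4, gb29_5, gb29_6, gb29_7,
    gb29_8, gb29_9, gb29_10, gb29_11, gb29_12, gb29_13, gb29_14, gb29_15, gb29_16, gb29_17, []]

/-- values -/
def tb29_0 : List ℕ := [nat_lit 1]

/-- values -/
def tb29_1 : List ℕ := [nat_lit 9, nat_lit 1]

/-- values -/
def tb29_2 : List ℕ := [nat_lit 2, nat_lit 6, nat_lit 1]

/-- values -/
def tb29_3 : List ℕ := [nat_lit 4, nat_lit 1, nat_lit 6, nat_lit 1]

/-- values -/
def tb29_4 : List ℕ := [nat_lit 5, nat_lit 24, nat_lit 2, nat_lit 9, nat_lit 1]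

/-- values -/
def tb29_5 : List ℕ := [nat_lit 97, nat_lit 4, nat_lit 24, nat_lit 1, nat_lit 4, nat_lit 1]

/-- values -/
def tb29_6 : List ℕ := [nat_lit 36028797018964008, nat_lit 32, nat_lit 4, nat_lit 36, nat_lit 2,
    nat_lit 1, nat_lit 1]

/-- values -/
def tb29_7 : List ℕ := [nat_lit 0, nat_lit 16, nat_lit 0, nat_lit 8, nat_lit 24, nat_lit 0,
    nat_lit 2, nat_lit 1]

/-- values -/
def tb29_8 : List ℕ := [nat_lit 98, nat_lit 18014398509482496, nat_lit 16, nat_lit 0, nat_lit 0,
    nat_lit 0, nat_lit 0, nat_lit 1, nat_lit 1]

/-- values -/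
def tb29_9 : List ℕ := [nat_lit 144115188075856424, nat_lit 162, nat_lit 4, nat_lit 24, nat_lit
    2, nat_lit 1, nat_lit 0, nat_lit 0, nat_lit 2, nat_lit 1]

/-- values -/
def tb29_10 : List ℕ := [nat_lit 5516815412193261308871477009989896, nat_lit
    324518553658463908501679591393362, nat_lit 324259173170675785, nat_lit 144115188075857444,
    nat_lit 72057594037928992, nat_lit 288230376151711810, nat_lit 36028797018963976, nat_lit
    2064, nat_lit 128, nat_lit 36028797018964224, nat_lit 1]

/-- values -/
def tb29_11 : List ℕ := [nat_lit 11682667931703455857080264556810885, nat_lit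
    10709112270728083244852044342757656, nat_lit 3245185536584291046837592722121874, nat_lit
    576460752303427584, nat_lit 324518553658432671534664149665056, nat_lit 144115188075856896,
    nat_lit 288230376151720064, nat_lit 264, nat_lit 2064, nat_lit 64, nat_lit 6, nat_lit 1]

/-- values -/
def tb29_12 : List ℕ := [nat_lit 11692013098647246061928234751624845926607379499154, nat_lit
    6490371073168682415860484749132040, nat_lit 649037107316863991989440088146212, nat_lit
    1298074214633725497991885867778064, nat_lit 1298074214633708348284504840896768, nat_lit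
    1188950301625843716, nat_lit 324518553658426870898344096433152, nat_lit 66, nat_lit 256,
    nat_lit 144115188075857920, nat_lit 1, nat_lit 8, nat_lit 1]

/-- values -/
def tb29_13 : List ℕ := [nat_lit
    199791907220223502808422222706762643567910281130558153654986045416023791284464999687699590596063486154228923591817079055589142693575511278322092052,
    nat_lit 23689854417065174473888451828712464, nat_lit 12980742146337256457099536454681096,
    nat_lit 5192296858534827628530496329318400, nat_lit 3245185536584309061236102204097552,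
    nat_lit 1298074214633707195363000234016768, nat_lit 1188950301625810948, nat_lit
    72057594037930016, nat_lit 576460752303423488, nat_lit 512, nat_lit 36, nat_lit 1, nat_lit 1,
    nat_lit 1]

/-- values -/
def tb29_14 : List ℕ := [nat_lit 171345796331649477762203042250260480, nat_lit
    25961484292674147438082112538869792, nat_lit 36893488147419168768, nat_lit
    2596148429267451284214147887136768, nat_lit 9223372036854907904, nat_lit
    324518553658436094270380951339024, nat_lit 1298074214633707195363000234016768, nat_lit 33288,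
    nat_lit 2048, nat_lit 0, nat_lit 8, nat_lit 36, nat_lit 0, nat_lit 2, nat_lit 1]

/-- values -/
def tb29_15 : List ℕ := [nat_lit 5846006549323736936976451485966488509126944557154, nat_lit
    199791907220223502808422222706762643567910281130558153654986045416023791284464999687699590596063532922281318180759463875106211860720809319442940416,
    nat_lit 20769187434139610273713183097260048, nat_lit 1298074214633707339478188309944320,
    nat_lit 12980742146337106577303937564557568, nat_lit 5192296858534829934373505542930944,
    nat_lit 649037107316858065252330468672528, nat_lit 1298074214633706907132624082309120,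
    nat_lit 2323857407723208964, nat_lit 1024, nat_lit 0, nat_lit 0, nat_lit 0, nat_lit 0,
    nat_lit 2, nat_lit 1]

/-- values -/
def tb29_16 : List ℕ := [nat_lit 334903147375497657207429905426448904, nat_lit
    11033630824386953738328082942657536, nat_lit 166478018026773243241440335517329424, nat_lit
    199791907220223502808422222706762643567910281130558153654986045416023791284464999687699590596063497846242022239005052162719035556673402605236421248,
    nat_lit 11033630824386515628156332340691476, nat_lit 324518553658426798840750058504208,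
    nat_lit 1298074214633744377081523804840064, nat_lit 1170935903116328960, nat_lit
    324518553658431482584362523822080, nat_lit 576460752303431680, nat_lit 18014398509482112,
    nat_lit 0, nat_lit 0, nat_lit 0, nat_lit 0, nat_lit 0, nat_lit 1]

/-- values -/
def tb29_17 : List ℕ := [nat_lit
    1598335257761788022467377781654101148543282249044465229239888363328190330275719997501596724768507936001883783323396265033047309467178848009702179368,
    nat_lit 11692013098647225292740800612290624856183592851618, nat_lit
    171345796331649424727813830336331780, nat_lit 26286002846332574092807674521600528, nat_lit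
    1622592768292156692345872239888384, nat_lit 2596148429267414102495624316330112, nat_lit
    2305843009213694208, nat_lit 324518553658431410526768485957664, nat_lit 4160, nat_lit
    2341871806232690696, nat_lit 36, nat_lit 2, nat_lit 2, nat_lit 0, nat_lit 0, nat_lit 2,
    nat_lit 0, nat_lit 1]

/-- values -/
def tb29 : List (List ℕ) := [tb29_0, tb29_1, tb29_2, tb29_3, tb29_4, tb29_5, tb29_6, tb29_7,
    tb29_8, tb29_9, tb29_10, tb29_11, tb29_12, tb29_13, tb29_14, tb29_15, tb29_16, tb29_17]

theorem v29 : chkV 90 ds29 ds30 xs29 tb29 = true := by decide +kernel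

theorem p29 : chkP ds29 ds30 tb29 gb29 = true := by decide +kernel

theorem c29 : chkC 90 ds29 gb29 r29 = true := by decide +kernel

theorem lv29 : LvOk 90 ds29 ds30 xs29 r29 := ⟨_, _, v29, p29, c29⟩

/-- the ranks -/
def r30 : ℕ := nat_lit
    3437782654176062164208477636154930875626091407152187587118086056986041070034409418952748267212712441315605555963778744674082192253468659997897619554288172419343534435740404530966291893842929042271101924585644835046185970847769497726977841245009173090042938715580806235658703606746899219232972780007721003995132987106013236123770530014787937058100779592839647313368056861289323644605522101244747905603230968734146636059967698799410806784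

/-- elements with leading terms -/
def gb30_0 : List El := [⟨nat_lit 1, nat_lit 0, nat_lit 0, nat_lit 0, [(nat_lit 1, nat_lit 0,
    nat_lit 0, nat_lit 0, nat_lit 0, nat_lit 0)]⟩]

/-- elements with leading terms -/
def gb30_1 : List El := [⟨nat_lit 1, nat_lit 0, nat_lit 0, nat_lit 0, [(nat_lit 1, nat_lit 1,
    nat_lit 0, nat_lit 0, nat_lit 0, nat_lit 0)]⟩]

/-- elements with leading terms -/
def gb30_2 : List El := [⟨nat_lit 1, nat_lit 0, nat_lit 0, nat_lit 0, [(nat_lit 1, nat_lit 2,
    nat_lit 0, nat_lit 0, nat_lit 0, nat_lit 0)]⟩]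

/-- elements with leading terms -/
def gb30_3 : List El := [⟨nat_lit 1, nat_lit 0, nat_lit 0, nat_lit 0, [(nat_lit 1, nat_lit 3,
    nat_lit 0, nat_lit 0, nat_lit 0, nat_lit 0)]⟩]

/-- elements with leading terms -/
def gb30_4 : List El := [⟨nat_lit 1, nat_lit 0, nat_lit 0, nat_lit 0, [(nat_lit 1, nat_lit 4,
    nat_lit 0, nat_lit 0, nat_lit 0, nat_lit 0)]⟩]

/-- elements with leading terms -/
def gb30_5 : List El := [⟨nat_lit 2, nat_lit 0, nat_lit 0, nat_lit 0, [(nat_lit 1, nat_lit 5,
    nat_lit 0, nat_lit 0, nat_lit 0, nat_lit 0)]⟩]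

/-- elements with leading terms -/
def gb30_6 : List El := [⟨nat_lit 2, nat_lit 0, nat_lit 0, nat_lit 0, [(nat_lit 1, nat_lit 6,
    nat_lit 0, nat_lit 0, nat_lit 0, nat_lit 0)]⟩]

/-- elements with leading terms -/
def gb30_7 : List El := [⟨nat_lit 2, nat_lit 0, nat_lit 0, nat_lit 0, [(nat_lit 1, nat_lit 7,
    nat_lit 0, nat_lit 0, nat_lit 0, nat_lit 0)]⟩]

/-- elements with leading terms -/
def gb30_8 : List El := [⟨nat_lit 2, nat_lit 0, nat_lit 0, nat_lit 0, [(nat_lit 1, nat_lit 8,
    nat_lit 0, nat_lit 0, nat_lit 0, nat_lit 0)]⟩]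

/-- elements with leading terms -/
def gb30_9 : List El := [⟨nat_lit 2, nat_lit 0, nat_lit 0, nat_lit 0, [(nat_lit 1, nat_lit 9,
    nat_lit 0, nat_lit 0, nat_lit 0, nat_lit 0)]⟩]

/-- elements with leading terms -/
def gb30_10 : List El := [⟨nat_lit 1, nat_lit 0, nat_lit 0, nat_lit 0, [(nat_lit 1, nat_lit 10,
    nat_lit 0, nat_lit 0, nat_lit 0, nat_lit 0)]⟩]

/-- elements with leading terms -/
def gb30_11 : List El := [⟨nat_lit 1, nat_lit 0, nat_lit 0, nat_lit 0, [(nat_lit 1, nat_lit 11,
    nat_lit 0, nat_lit 0, nat_lit 0, nat_lit 0)]⟩]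

/-- elements with leading terms -/
def gb30_12 : List El := [⟨nat_lit 2, nat_lit 0, nat_lit 0, nat_lit 0, [(nat_lit 1, nat_lit 12,
    nat_lit 0, nat_lit 0, nat_lit 0, nat_lit 0)]⟩]

/-- elements with leading terms -/
def gb30_13 : List El := [⟨nat_lit 2, nat_lit 0, nat_lit 0, nat_lit 0, [(nat_lit 1, nat_lit 13,
    nat_lit 0, nat_lit 0, nat_lit 0, nat_lit 0)]⟩]

/-- elements with leading terms -/
def gb30_14 : List El := [⟨nat_lit 2, nat_lit 0, nat_lit 0, nat_lit 0, [(nat_lit 1, nat_lit 14,
    nat_lit 0, nat_lit 0, nat_lit 0, nat_lit 0)]⟩]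

/-- elements with leading terms -/
def gb30_15 : List El := [⟨nat_lit 2, nat_lit 0, nat_lit 0, nat_lit 0, [(nat_lit 1, nat_lit 15,
    nat_lit 0, nat_lit 0, nat_lit 0, nat_lit 0)]⟩]

/-- elements with leading terms -/
def gb30_16 : List El := [⟨nat_lit 1, nat_lit 0, nat_lit 0, nat_lit 0, [(nat_lit 1, nat_lit 16,
    nat_lit 0, nat_lit 0, nat_lit 0, nat_lit 0)]⟩]

/-- elements with leading terms -/
def gb30 : List (List El) := [gb30_0, gb30_1, gb30_2, gb30_3, gb30_4, gb30_5, gb30_6, gb30_7,
    gb30_8, gb30_9, gb30_10, gb30_11, gb30_12, gb30_13, gb30_14, gb30_15, gb30_16, []]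

/-- values -/
def tb30_0 : List ℕ := [nat_lit 1]

/-- values -/
def tb30_1 : List ℕ := [nat_lit 1, nat_lit 1]

/-- values -/
def tb30_2 : List ℕ := [nat_lit 0, nat_lit 2, nat_lit 1]

/-- values -/
def tb30_3 : List ℕ := [nat_lit 0, nat_lit 0, nat_lit 2, nat_lit 1]

/-- values -/
def tb30_4 : List ℕ := [nat_lit 1, nat_lit 4, nat_lit 0, nat_lit 1, nat_lit 1]

/-- values -/
def tb30_5 : List ℕ := [nat_lit 130, nat_lit 4, nat_lit 0, nat_lit 2, nat_lit 8, nat_lit 1]

/-- values -/
def tb30_6 : List ℕ := [nat_lit 32, nat_lit 0, nat_lit 8, nat_lit 32, nat_lit 1, nat_lit 9,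
    nat_lit 1]

/-- values -/
def tb30_7 : List ℕ := [nat_lit 36028797018964488, nat_lit 16, nat_lit 0, nat_lit 4, nat_lit 32,
    nat_lit 2, nat_lit 6, nat_lit 1]

/-- values -/
def tb30_8 : List ℕ := [nat_lit 129, nat_lit 36028797018964224, nat_lit 0, nat_lit 0, nat_lit 8,
    nat_lit 8, nat_lit 2, nat_lit 9, nat_lit 1]

/-- values -/
def tb30_9 : List ℕ := [nat_lit 144115188075856928, nat_lit 65, nat_lit 8, nat_lit 32, nat_lit 1,
    nat_lit 1, nat_lit 4, nat_lit 2, nat_lit 6, nat_lit 1]

/-- values -/
def tb30_10 : List ℕ := [nat_lit 18014398509498880, nat_lit 4683743612465316880, nat_lit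
    576460752303423553, nat_lit 8, nat_lit 144115188075857952, nat_lit 144115188075857057,
    nat_lit 306244774661194244, nat_lit 72057594037929248, nat_lit 144115188075855936, nat_lit
    18014398509482496, nat_lit 1]

/-- values -/
def tb30_11 : List ℕ := [nat_lit 2596148429267432261009321874428033, nat_lit
    10384593717069656409982497265304068, nat_lit 649037107316862676938348895930368, nat_lit
    288230376151715840, nat_lit 1188950301625811200, nat_lit 180143985094819876, nat_lit
    72057594037933120, nat_lit 576460752303423748, nat_lit 162129586585338400, nat_lit 128,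
    nat_lit 2, nat_lit 1]

/-- values -/
def tb30_12 : List ℕ := [nat_lit 5846006549323611672814739330884155283449743409217, nat_lit
    5192296858534902586442694283788808, nat_lit 65536, nat_lit 37469948899722526720, nat_lit
    2305843009213710592, nat_lit 649037107316853453566312041153056, nat_lit
    324518553658427303243908324001936, nat_lit 36028797018964550, nat_lit 72057594037929984,
    nat_lit 144115188075857920, nat_lit 2, nat_lit 4, nat_lit 1]

/-- values -/
def tb30_13 : List ℕ := [nat_lit 42187411975595769701773056065800208, nat_lit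
    1298074214633725930337450095280128, nat_lit 10384593717069730214973190612992260, nat_lit
    4611686018427454464, nat_lit 1298074214633744088851147653120000, nat_lit
    1298074214633709212975633295999232, nat_lit 649037107316862694952747405427236, nat_lit
    144115188075861136, nat_lit 288230376151711744, nat_lit 144115188075856896, nat_lit 32,
    nat_lit 2, nat_lit 9, nat_lit 1]

/-- values -/
def tb30_14 : List ℕ := [nat_lit
    199791907220223502808422222706762643567910281130558153654986045416023791284464999687699590596063509538255120886227099717983063634217737945137299716,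
    nat_lit 41538374868279211396111923377341472, nat_lit 36893488147419103232, nat_lit
    5192296858534827628530496329220096, nat_lit 131072, nat_lit
    1622592768292133705973374140811296, nat_lit 2596148429267416696569009681728000, nat_lit
    2323857407723176452, nat_lit 576460752303423488, nat_lit 576460752303423488, nat_lit 4,
    nat_lit 16, nat_lit 2, nat_lit 6, nat_lit 1]

/-- values -/
def tb30_15 : List ℕ := [nat_lit 11692013098647392095277381046008397844638995841153, nat_lit
    399583814440447005616844445413525287135820562261116307309972090832047582568929999375399181192126995692484044477986738989574664421300220105983033600,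
    nat_lit 324518553658426726783156020578304, nat_lit 2596148429267414390726000468041728,
    nat_lit 18014398509515264, nat_lit 649037107316855831466915292792320, nat_lit
    2920666982925863599478496322193440, nat_lit 576460752303443968, nat_lit
    649037107316865072853350657066260, nat_lit 576460752303425536, nat_lit 0, nat_lit 8, nat_lit
    4, nat_lit 1, nat_lit 6, nat_lit 1]

/-- values -/
def tb30_16 : List ℕ := [nat_lit 1298074214633707483593376385728512, nat_lit
    10384593717069657562904001872150528, nat_lit 324518553658731170117966266106912, nat_lit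
    11692013098647224643703693295437171289871542648960, nat_lit
    5192296858534829934373505542946820, nat_lit 11033630824386513466428511202935072, nat_lit
    1298074214633730037620310257242176, nat_lit 2596148429267416732597806700707840, nat_lit
    649037107316862748995942933890048, nat_lit 288230376151715840, nat_lit 128, nat_lit 0,
    nat_lit 0, nat_lit 0, nat_lit 0, nat_lit 0, nat_lit 1]

/-- values -/
def tb30 : List (List ℕ) := [tb30_0, tb30_1, tb30_2, tb30_3, tb30_4, tb30_5, tb30_6, tb30_7,
    tb30_8, tb30_9, tb30_10, tb30_11, tb30_12, tb30_13, tb30_14, tb30_15, tb30_16]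

theorem v30 : chkV 90 ds30 ds31 xs30 tb30 = true := by decide +kernel

theorem p30 : chkP ds30 ds31 tb30 gb30 = true := by decide +kernel

theorem c30 : chkC 90 ds30 gb30 r30 = true := by decide +kernel

theorem lv30 : LvOk 90 ds30 ds31 xs30 r30 := ⟨_, _, v30, p30, c30⟩

/-- the ranks -/
def r31 : ℕ := nat_lit
    2677211015810767951973232825048208727456574437835722458854139211341682450757510945019240950583987417104593970131930091949011062669008375583627518960255714304337811933846272983769950936356826991980993838871162359332371002942162785320573069460959373298585253369963949200959692109527406761067716011053726607516288868226571300888256741862102446540182710115518914558645319555014506489665468764974418211381168156852564007463465492340879130624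

/-- elements with leading terms -/
def gb31_0 : List El := [⟨nat_lit 2, nat_lit 0, nat_lit 0, nat_lit 0, [(nat_lit 1, nat_lit 0,
    nat_lit 0, nat_lit 0, nat_lit 0, nat_lit 0)]⟩]

/-- elements with leading terms -/
def gb31_1 : List El := [⟨nat_lit 2, nat_lit 0, nat_lit 0, nat_lit 0, [(nat_lit 1, nat_lit 1,
    nat_lit 0, nat_lit 0, nat_lit 0, nat_lit 0)]⟩]

/-- elements with leading terms -/
def gb31_2 : List El := [⟨nat_lit 2, nat_lit 0, nat_lit 0, nat_lit 0, [(nat_lit 1, nat_lit 2,
    nat_lit 0, nat_lit 0, nat_lit 0, nat_lit 0)]⟩]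

/-- elements with leading terms -/
def gb31_3 : List El := [⟨nat_lit 2, nat_lit 0, nat_lit 0, nat_lit 0, [(nat_lit 1, nat_lit 3,
    nat_lit 0, nat_lit 0, nat_lit 0, nat_lit 0)]⟩]

/-- elements with leading terms -/
def gb31_4 : List El := [⟨nat_lit 2, nat_lit 0, nat_lit 0, nat_lit 0, [(nat_lit 1, nat_lit 4,
    nat_lit 0, nat_lit 0, nat_lit 0, nat_lit 0)]⟩]

/-- elements with leading terms -/
def gb31_5 : List El := [⟨nat_lit 1, nat_lit 0, nat_lit 0, nat_lit 0, [(nat_lit 1, nat_lit 5,
    nat_lit 0, nat_lit 0, nat_lit 0, nat_lit 0)]⟩]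

/-- elements with leading terms -/
def gb31_6 : List El := [⟨nat_lit 1, nat_lit 0, nat_lit 0, nat_lit 0, [(nat_lit 1, nat_lit 6,
    nat_lit 0, nat_lit 0, nat_lit 0, nat_lit 0)]⟩]

/-- elements with leading terms -/
def gb31_7 : List El := [⟨nat_lit 1, nat_lit 0, nat_lit 0, nat_lit 0, [(nat_lit 1, nat_lit 7,
    nat_lit 0, nat_lit 0, nat_lit 0, nat_lit 0)]⟩]

/-- elements with leading terms -/
def gb31_8 : List El := [⟨nat_lit 1, nat_lit 0, nat_lit 0, nat_lit 0, [(nat_lit 1, nat_lit 8,
    nat_lit 0, nat_lit 0, nat_lit 0, nat_lit 0)]⟩]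

/-- elements with leading terms -/
def gb31_9 : List El := [⟨nat_lit 1, nat_lit 0, nat_lit 0, nat_lit 0, [(nat_lit 1, nat_lit 9,
    nat_lit 0, nat_lit 0, nat_lit 0, nat_lit 0)]⟩]

/-- elements with leading terms -/
def gb31_10 : List El := [⟨nat_lit 2, nat_lit 0, nat_lit 0, nat_lit 0, [(nat_lit 1, nat_lit 10,
    nat_lit 0, nat_lit 0, nat_lit 0, nat_lit 0)]⟩]

/-- elements with leading terms -/
def gb31_11 : List El := [⟨nat_lit 2, nat_lit 0, nat_lit 0, nat_lit 0, [(nat_lit 1, nat_lit 11,
    nat_lit 0, nat_lit 0, nat_lit 0, nat_lit 0)]⟩]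

/-- elements with leading terms -/
def gb31_12 : List El := [⟨nat_lit 1, nat_lit 0, nat_lit 0, nat_lit 0, [(nat_lit 1, nat_lit 12,
    nat_lit 0, nat_lit 0, nat_lit 0, nat_lit 0)]⟩]

/-- elements with leading terms -/
def gb31_13 : List El := [⟨nat_lit 1, nat_lit 0, nat_lit 0, nat_lit 0, [(nat_lit 1, nat_lit 13,
    nat_lit 0, nat_lit 0, nat_lit 0, nat_lit 0)]⟩]

/-- elements with leading terms -/
def gb31_14 : List El := [⟨nat_lit 1, nat_lit 0, nat_lit 0, nat_lit 0, [(nat_lit 1, nat_lit 14,
    nat_lit 0, nat_lit 0, nat_lit 0, nat_lit 0)]⟩]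

/-- elements with leading terms -/
def gb31 : List (List El) := [gb31_0, gb31_1, gb31_2, gb31_3, gb31_4, gb31_5, gb31_6, gb31_7,
    gb31_8, gb31_9, gb31_10, gb31_11, gb31_12, gb31_13, gb31_14, [], []]

/-- values -/
def tb31_0 : List ℕ := [nat_lit 1]

/-- values -/
def tb31_1 : List ℕ := [nat_lit 9, nat_lit 1]

/-- values -/
def tb31_2 : List ℕ := [nat_lit 2, nat_lit 6, nat_lit 1]

/-- values -/
def tb31_3 : List ℕ := [nat_lit 4, nat_lit 1, nat_lit 6, nat_lit 1]

/-- values -/
def tb31_4 : List ℕ := [nat_lit 5, nat_lit 24, nat_lit 2, nat_lit 9, nat_lit 1]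

/-- values -/
def tb31_5 : List ℕ := [nat_lit 65, nat_lit 0, nat_lit 8, nat_lit 1, nat_lit 4, nat_lit 1]

/-- values -/
def tb31_6 : List ℕ := [nat_lit 36028797018963992, nat_lit 0, nat_lit 0, nat_lit 36, nat_lit 2,
    nat_lit 1, nat_lit 1]

/-- values -/
def tb31_7 : List ℕ := [nat_lit 36028797018964488, nat_lit 0, nat_lit 0, nat_lit 4, nat_lit 40,
    nat_lit 0, nat_lit 2, nat_lit 1]

/-- values -/
def tb31_8 : List ℕ := [nat_lit 144115188075855954, nat_lit 18014398509482496, nat_lit 32,
    nat_lit 16, nat_lit 4, nat_lit 0, nat_lit 0, nat_lit 1, nat_lit 1]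

/-- values -/
def tb31_9 : List ℕ := [nat_lit 72057594037930504, nat_lit 146, nat_lit 0, nat_lit 24, nat_lit
    34, nat_lit 1, nat_lit 0, nat_lit 0, nat_lit 2, nat_lit 1]

/-- values -/
def tb31_10 : List ℕ := [nat_lit 10709112270728084469831142987548168, nat_lit
    324518553658464268789649781031010, nat_lit 36028797018964041, nat_lit 144115188075857444,
    nat_lit 648518346341353504, nat_lit 576460752303423554, nat_lit 36028797018964488, nat_lit
    144115188075856912, nat_lit 128, nat_lit 36028797018964224, nat_lit 1]

/-- values -/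
def tb31_11 : List ℕ := [nat_lit 6490371073168610088050469179265413, nat_lit
    5516815412193260191978769421992984, nat_lit 1947111321950588174930234763781282, nat_lit
    1298074214633707483593376385732608, nat_lit 324518553658432671534664149665056, nat_lit
    144115188075857936, nat_lit 288230376151720064, nat_lit 520, nat_lit 2064, nat_lit 64,
    nat_lit 6, nat_lit 1]

/-- values -/
def tb31_12 : List ℕ := [nat_lit 11692013098647244763854020117936385538057006810242, nat_lit
    10384593717069802849027980844352000, nat_lit 10394307939971205380, nat_lit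
    2596148429267451428329335963059232, nat_lit 1298074214633708348284504840897024, nat_lit
    1188950301625843720, nat_lit 324518553658426726783156020578320, nat_lit 66, nat_lit 256,
    nat_lit 144115188075857920, nat_lit 1, nat_lit 8, nat_lit 1]

/-- values -/
def tb31_13 : List ℕ := [nat_lit
    199791907220223502808422222706762643567910281130558153654986045416023791284464999687699590596063486154228923591770348383862328954382517650433672228,
    nat_lit 22391780202431454091985742653882368, nat_lit 7788445287802260177770194355093504,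
    nat_lit 10384593717069664480433029513380864, nat_lit 649037107316877160514750519574544,
    nat_lit 1298074214633707483593376385728512, nat_lit 1152921504606880260, nat_lit
    144115188075856912, nat_lit 0, nat_lit 512, nat_lit 36, nat_lit 1, nat_lit 1, nat_lit 1]

/-- values -/
def tb31_14 : List ℕ := [nat_lit
    199791907220223502808422222706762643567910281130558153654986045416023791284464999687699590596063509538255120886395849365885445643401904270397702404,
    nat_lit 51922968585348580656582179499870208, nat_lit 36893488147419234304, nat_lit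
    11682667931703362740654369044168704, nat_lit 2048, nat_lit 649037107316853597681500117075968,
    nat_lit 1298074214633707195363000234016768, nat_lit 16644, nat_lit 1024, nat_lit 0, nat_lit
    4, nat_lit 20, nat_lit 0, nat_lit 2, nat_lit 1]

/-- values -/
def tb31 : List (List ℕ) := [tb31_0, tb31_1, tb31_2, tb31_3, tb31_4, tb31_5, tb31_6, tb31_7,
    tb31_8, tb31_9, tb31_10, tb31_11, tb31_12, tb31_13, tb31_14]

theorem v31 : chkV 90 ds31 ds32 xs31 tb31 = true := by decide +kernel

theorem p31 : chkP ds31 ds32 tb31 gb31 = true := by decide +kernel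

theorem c31 : chkC 90 ds31 gb31 r31 = true := by decide +kernel

theorem lv31 : LvOk 90 ds31 ds32 xs31 r31 := ⟨_, _, v31, p31, c31⟩

/-- the ranks -/
def r32 : ℕ := nat_lit
    2890171668746888797330868488956793783370210559748039570424440876493773757545922821425346748623017061246549050227453413687411958280767593225182726929415263039161040297349335532433028764819378457816997673330754242656239627769420374599452596132027467230624151111871029370884105767679168059898855001420647250734086083691118079673595197732814788141639801071797799984274945684441245636680737540399164777200578562789308931368910155614362009600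

/-- elements with leading terms -/
def gb32_0 : List El := [⟨nat_lit 1, nat_lit 0, nat_lit 0, nat_lit 0, [(nat_lit 1, nat_lit 0,
    nat_lit 0, nat_lit 0, nat_lit 0, nat_lit 0)]⟩]

/-- elements with leading terms -/
def gb32_1 : List El := [⟨nat_lit 1, nat_lit 0, nat_lit 0, nat_lit 0, [(nat_lit 1, nat_lit 1,
    nat_lit 0, nat_lit 0, nat_lit 0, nat_lit 0)]⟩]

/-- elements with leading terms -/
def gb32_2 : List El := [⟨nat_lit 1, nat_lit 0, nat_lit 0, nat_lit 0, [(nat_lit 1, nat_lit 2,
    nat_lit 0, nat_lit 0, nat_lit 0, nat_lit 0)]⟩]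

/-- elements with leading terms -/
def gb32_3 : List El := [⟨nat_lit 1, nat_lit 0, nat_lit 0, nat_lit 0, [(nat_lit 1, nat_lit 3,
    nat_lit 0, nat_lit 0, nat_lit 0, nat_lit 0)]⟩]

/-- elements with leading terms -/
def gb32_4 : List El := [⟨nat_lit 1, nat_lit 0, nat_lit 0, nat_lit 0, [(nat_lit 1, nat_lit 4,
    nat_lit 0, nat_lit 0, nat_lit 0, nat_lit 0)]⟩]

/-- elements with leading terms -/
def gb32_5 : List El := [⟨nat_lit 2, nat_lit 0, nat_lit 0, nat_lit 0, [(nat_lit 1, nat_lit 5,
    nat_lit 0, nat_lit 0, nat_lit 0, nat_lit 0)]⟩]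

/-- elements with leading terms -/
def gb32_6 : List El := [⟨nat_lit 2, nat_lit 0, nat_lit 0, nat_lit 0, [(nat_lit 1, nat_lit 6,
    nat_lit 0, nat_lit 0, nat_lit 0, nat_lit 0)]⟩]

/-- elements with leading terms -/
def gb32_7 : List El := [⟨nat_lit 2, nat_lit 0, nat_lit 0, nat_lit 0, [(nat_lit 1, nat_lit 7,
    nat_lit 0, nat_lit 0, nat_lit 0, nat_lit 0)]⟩]

/-- elements with leading terms -/
def gb32_8 : List El := [⟨nat_lit 2, nat_lit 0, nat_lit 0, nat_lit 0, [(nat_lit 1, nat_lit 8,
    nat_lit 0, nat_lit 0, nat_lit 0, nat_lit 0)]⟩]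

/-- elements with leading terms -/
def gb32_9 : List El := [⟨nat_lit 2, nat_lit 0, nat_lit 0, nat_lit 0, [(nat_lit 1, nat_lit 9,
    nat_lit 0, nat_lit 0, nat_lit 0, nat_lit 0)]⟩]

/-- elements with leading terms -/
def gb32_10 : List El := [⟨nat_lit 1, nat_lit 0, nat_lit 0, nat_lit 0, [(nat_lit 1, nat_lit 10,
    nat_lit 0, nat_lit 0, nat_lit 0, nat_lit 0)]⟩]

/-- elements with leading terms -/
def gb32_11 : List El := [⟨nat_lit 1, nat_lit 0, nat_lit 0, nat_lit 0, [(nat_lit 1, nat_lit 11,
    nat_lit 0, nat_lit 0, nat_lit 0, nat_lit 0)]⟩]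

/-- elements with leading terms -/
def gb32_12 : List El := [⟨nat_lit 2, nat_lit 0, nat_lit 0, nat_lit 0, [(nat_lit 1, nat_lit 12,
    nat_lit 0, nat_lit 0, nat_lit 0, nat_lit 0)]⟩]

/-- elements with leading terms -/
def gb32_13 : List El := [⟨nat_lit 2, nat_lit 0, nat_lit 0, nat_lit 0, [(nat_lit 1, nat_lit 13,
    nat_lit 0, nat_lit 0, nat_lit 0, nat_lit 0)]⟩]

/-- elements with leading terms -/
def gb32 : List (List El) := [gb32_0, gb32_1, gb32_2, gb32_3, gb32_4, gb32_5, gb32_6, gb32_7,
    gb32_8, gb32_9, gb32_10, gb32_11, gb32_12, gb32_13, []]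

/-- values -/
def tb32_0 : List ℕ := [nat_lit 1]

/-- values -/
def tb32_1 : List ℕ := [nat_lit 1, nat_lit 1]

/-- values -/
def tb32_2 : List ℕ := [nat_lit 0, nat_lit 2, nat_lit 1]

/-- values -/
def tb32_3 : List ℕ := [nat_lit 0, nat_lit 0, nat_lit 2, nat_lit 1]

/-- values -/
def tb32_4 : List ℕ := [nat_lit 1, nat_lit 4, nat_lit 0, nat_lit 1, nat_lit 1]

/-- values -/
def tb32_5 : List ℕ := [nat_lit 130, nat_lit 8, nat_lit 16, nat_lit 2, nat_lit 8, nat_lit 1]

/-- values -/
def tb32_6 : List ℕ := [nat_lit 0, nat_lit 0, nat_lit 0, nat_lit 32, nat_lit 1, nat_lit 9,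
    nat_lit 1]

/-- values -/
def tb32_7 : List ℕ := [nat_lit 0, nat_lit 16, nat_lit 0, nat_lit 8, nat_lit 16, nat_lit 2,
    nat_lit 6, nat_lit 1]

/-- values -/
def tb32_8 : List ℕ := [nat_lit 129, nat_lit 36028797018964224, nat_lit 0, nat_lit 0, nat_lit 4,
    nat_lit 8, nat_lit 2, nat_lit 9, nat_lit 1]

/-- values -/
def tb32_9 : List ℕ := [nat_lit 144115188075856896, nat_lit 65, nat_lit 0, nat_lit 32, nat_lit 1,
    nat_lit 1, nat_lit 4, nat_lit 2, nat_lit 6, nat_lit 1]

/-- values -/
def tb32_10 : List ℕ := [nat_lit 5192296858534827646544894838718464, nat_lit 4755801206503243776,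
    nat_lit 65, nat_lit 8, nat_lit 144115188075855904, nat_lit 432345564227567777, nat_lit
    594475150812905476, nat_lit 144115188075858208, nat_lit 144115188075855936, nat_lit
    18014398509482496, nat_lit 1]

/-- values -/
def tb32_11 : List ℕ := [nat_lit 19023204826013241473, nat_lit
    5192296858534828799466399445549316, nat_lit 649037107316853453566312041285648, nat_lit
    1298074214633707195363000234020864, nat_lit 1188950301625811200, nat_lit 180143985094819860,
    nat_lit 432345564227573824, nat_lit 576460752303423492, nat_lit 162129586585338400, nat_lit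
    128, nat_lit 2, nat_lit 1]

/-- values -/
def tb32_12 : List ℕ := [nat_lit 5846006549323611672814739330865132078623730434113, nat_lit
    5192296858534902586442694283772164, nat_lit 649037107316853597681500117010464, nat_lit
    2596148429267432261009321874161664, nat_lit 2305843009213710336, nat_lit
    649037107316853597681500117008932, nat_lit 324518553658427087071126210217120, nat_lit
    36028797018964550, nat_lit 72057594037929984, nat_lit 144115188075857920, nat_lit 2, nat_lit
    4, nat_lit 1]

/-- values -/
def tb32_13 : List ℕ := [nat_lit 20769187434139900809932344022534144, nat_lit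
    18446744073709551616, nat_lit 0, nat_lit 9223372036854775808, nat_lit 288230376151711744,
    nat_lit 1298074214633709501206009447727616, nat_lit 649037107316862712967145914893572,
    nat_lit 288230376151718016, nat_lit 576460752303423488, nat_lit 144115188075856896, nat_lit
    32, nat_lit 2, nat_lit 9, nat_lit 1]

/-- values -/
def tb32 : List (List ℕ) := [tb32_0, tb32_1, tb32_2, tb32_3, tb32_4, tb32_5, tb32_6, tb32_7,
    tb32_8, tb32_9, tb32_10, tb32_11, tb32_12, tb32_13]

theorem v32 : chkV 90 ds32 ds33 xs32 tb32 = true := by decide +kernel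

theorem p32 : chkP ds32 ds33 tb32 gb32 = true := by decide +kernel

theorem c32 : chkC 90 ds32 gb32 r32 = true := by decide +kernel

theorem lv32 : LvOk 90 ds32 ds33 xs32 r32 := ⟨_, _, v32, p32, c32⟩

/-- the ranks -/
def r33 : ℕ := nat_lit
    2220868682678927904072815826403355508013067238579715839496110494772028955770472860777414268442550293583725074658166828200028692964933696514426601624332947204339663086387055565526816869012945407052472042048089338398026076816523525862305530875562831405734456243880457741666823686989666364993424640557385100259831488953065938591496997846981062719185368883622464582234477756666094110543287693124978711784407860582180661664054019265539342336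

/-- elements with leading terms -/
def gb33_0 : List El := [⟨nat_lit 2, nat_lit 0, nat_lit 0, nat_lit 0, [(nat_lit 1, nat_lit 0,
    nat_lit 0, nat_lit 0, nat_lit 0, nat_lit 0)]⟩]

/-- elements with leading terms -/
def gb33_1 : List El := [⟨nat_lit 2, nat_lit 0, nat_lit 0, nat_lit 0, [(nat_lit 1, nat_lit 1,
    nat_lit 0, nat_lit 0, nat_lit 0, nat_lit 0)]⟩]

/-- elements with leading terms -/
def gb33_2 : List El := [⟨nat_lit 2, nat_lit 0, nat_lit 0, nat_lit 0, [(nat_lit 1, nat_lit 2,
    nat_lit 0, nat_lit 0, nat_lit 0, nat_lit 0)]⟩]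

/-- elements with leading terms -/
def gb33_3 : List El := [⟨nat_lit 2, nat_lit 0, nat_lit 0, nat_lit 0, [(nat_lit 1, nat_lit 3,
    nat_lit 0, nat_lit 0, nat_lit 0, nat_lit 0)]⟩]

/-- elements with leading terms -/
def gb33_4 : List El := [⟨nat_lit 2, nat_lit 0, nat_lit 0, nat_lit 0, [(nat_lit 1, nat_lit 4,
    nat_lit 0, nat_lit 0, nat_lit 0, nat_lit 0)]⟩]

/-- elements with leading terms -/
def gb33_5 : List El := [⟨nat_lit 1, nat_lit 0, nat_lit 0, nat_lit 0, [(nat_lit 1, nat_lit 5,
    nat_lit 0, nat_lit 0, nat_lit 0, nat_lit 0)]⟩]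

/-- elements with leading terms -/
def gb33_6 : List El := [⟨nat_lit 1, nat_lit 0, nat_lit 0, nat_lit 0, [(nat_lit 1, nat_lit 6,
    nat_lit 0, nat_lit 0, nat_lit 0, nat_lit 0)]⟩]

/-- elements with leading terms -/
def gb33_7 : List El := [⟨nat_lit 1, nat_lit 0, nat_lit 0, nat_lit 0, [(nat_lit 1, nat_lit 7,
    nat_lit 0, nat_lit 0, nat_lit 0, nat_lit 0)]⟩]

/-- elements with leading terms -/
def gb33_8 : List El := [⟨nat_lit 1, nat_lit 0, nat_lit 0, nat_lit 0, [(nat_lit 1, nat_lit 8,
    nat_lit 0, nat_lit 0, nat_lit 0, nat_lit 0)]⟩]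

/-- elements with leading terms -/
def gb33_9 : List El := [⟨nat_lit 1, nat_lit 0, nat_lit 0, nat_lit 0, [(nat_lit 1, nat_lit 9,
    nat_lit 0, nat_lit 0, nat_lit 0, nat_lit 0)]⟩]

/-- elements with leading terms -/
def gb33_10 : List El := [⟨nat_lit 2, nat_lit 0, nat_lit 0, nat_lit 0, [(nat_lit 1, nat_lit 10,
    nat_lit 0, nat_lit 0, nat_lit 0, nat_lit 0)]⟩]

/-- elements with leading terms -/
def gb33_11 : List El := [⟨nat_lit 2, nat_lit 0, nat_lit 0, nat_lit 0, [(nat_lit 1, nat_lit 11,
    nat_lit 0, nat_lit 0, nat_lit 0, nat_lit 0)]⟩]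

/-- elements with leading terms -/
def gb33_12 : List El := [⟨nat_lit 1, nat_lit 0, nat_lit 0, nat_lit 0, [(nat_lit 1, nat_lit 12,
    nat_lit 0, nat_lit 0, nat_lit 0, nat_lit 0)]⟩]

/-- elements with leading terms -/
def gb33_13 : List El := [⟨nat_lit 1, nat_lit 0, nat_lit 0, nat_lit 0, [(nat_lit 1, nat_lit 13,
    nat_lit 0, nat_lit 0, nat_lit 0, nat_lit 0)]⟩]

/-- elements with leading terms -/
def gb33 : List (List El) := [gb33_0, gb33_1, gb33_2, gb33_3, gb33_4, gb33_5, gb33_6, gb33_7,
    gb33_8, gb33_9, gb33_10, gb33_11, gb33_12, gb33_13]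

/-- values -/
def tb33_0 : List ℕ := [nat_lit 1]

/-- values -/
def tb33_1 : List ℕ := [nat_lit 9, nat_lit 1]

/-- values -/
def tb33_2 : List ℕ := [nat_lit 2, nat_lit 6, nat_lit 1]

/-- values -/
def tb33_3 : List ℕ := [nat_lit 4, nat_lit 1, nat_lit 6, nat_lit 1]

/-- values -/
def tb33_4 : List ℕ := [nat_lit 5, nat_lit 24, nat_lit 2, nat_lit 9, nat_lit 1]

/-- values -/
def tb33_5 : List ℕ := [nat_lit 81, nat_lit 8, nat_lit 40, nat_lit 1, nat_lit 4, nat_lit 1]

/-- values -/
def tb33_6 : List ℕ := [nat_lit 36028797018963992, nat_lit 16, nat_lit 8, nat_lit 36, nat_lit 2,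
    nat_lit 1, nat_lit 1]

/-- values -/
def tb33_7 : List ℕ := [nat_lit 18014398509482244, nat_lit 0, nat_lit 0, nat_lit 0, nat_lit 8,
    nat_lit 0, nat_lit 2, nat_lit 1]

/-- values -/
def tb33_8 : List ℕ := [nat_lit 72057594037928002, nat_lit 18014398509482496, nat_lit 16, nat_lit
    32, nat_lit 8, nat_lit 0, nat_lit 0, nat_lit 1, nat_lit 1]

/-- values -/
def tb33_9 : List ℕ := [nat_lit 144115188075856408, nat_lit 130, nat_lit 8, nat_lit 8, nat_lit
    18, nat_lit 1, nat_lit 0, nat_lit 0, nat_lit 2, nat_lit 1]

/-- values -/
def tb33_10 : List ℕ := [nat_lit 324518553658438364084593146021896, nat_lit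
    324518553658463764386491515536450, nat_lit 612489549322387529, nat_lit 144115188075857444,
    nat_lit 360287970189639712, nat_lit 288230376151711810, nat_lit 36028797018964232, nat_lit
    72057594037927952, nat_lit 128, nat_lit 36028797018964224, nat_lit 1]

/-- values -/
def tb33_11 : List ℕ := [nat_lit 12980742146337181481172939990913157, nat_lit
    10709112270728092450209682688066072, nat_lit 649037107316872332655949978412162, nat_lit
    2596148429267414390726000468037632, nat_lit 324518553658432671534664149665056, nat_lit
    144115188075857952, nat_lit 288230376151720064, nat_lit 8, nat_lit 2064, nat_lit 64, nat_lit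
    6, nat_lit 1]

/-- values -/
def tb33_12 : List ℕ := [nat_lit 11692013098647244763854020117917650563607145611426, nat_lit
    12980742146337217239753981312401412, nat_lit 324518553658437193148690029775124, nat_lit
    432345564227635200, nat_lit 1298074214633708348284504840896512, nat_lit 1188950301625843712,
    nat_lit 324518553658426798840750058504224, nat_lit 66, nat_lit 256, nat_lit
    144115188075857920, nat_lit 1, nat_lit 8, nat_lit 1]

/-- values -/
def tb33_13 : List ℕ := [nat_lit
    199791907220223502808422222706762643567910281130558153654986045416023791284464999687699590596063486154228923591801502165013537910930328591554218020,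
    nat_lit 21093705987797737240905141337524256, nat_lit 7788445287802316688938318600093956,
    nat_lit 4611686018427421696, nat_lit 1947111321950565116500142626834448, nat_lit
    1298074214633707483593376385728512, nat_lit 1170935903116345604, nat_lit 0, nat_lit
    288230376151711744, nat_lit 512, nat_lit 36, nat_lit 1, nat_lit 1, nat_lit 1]

/-- values -/
def tb33 : List (List ℕ) := [tb33_0, tb33_1, tb33_2, tb33_3, tb33_4, tb33_5, tb33_6, tb33_7,
    tb33_8, tb33_9, tb33_10, tb33_11, tb33_12, tb33_13]

theorem v33 : chkV 90 ds33 ds34 xs33 tb33 = true := by decide +kernel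

theorem p33 : chkP ds33 ds34 tb33 gb33 = true := by decide +kernel

theorem c33 : chkC 90 ds33 gb33 r33 = true := by decide +kernel

theorem lv33 : LvOk 90 ds33 ds34 xs33 r33 := ⟨_, _, v33, p33, c33⟩

end Vale.Agent.P236X.Ce
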