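import Vale.Agent.P236X.Ce.C0
import Vale.Agent.P236X.Ce.C1
import Vale.Agent.P236X.Ce.C2
import Vale.Agent.P236X.Ce.C3
import Vale.Agent.P236X.Ce.C4
import Vale.Agent.P236X.Ce.C5
import Vale.Agent.P236X.Ce.C6
import Vale.Agent.P236X.Ce.C7
import Vale.Agent.P236X.Ce.C8
import Vale.Agent.P236X.Ce.C9
import Vale.Agent.P236X.Ce.C10
import Vale.Agent.P236X.Ce.C11
import Vale.Agent.P236X.Ce.C12
import Vale.Agent.P236X.Ce.C13
import Vale.Agent.P236X.Ce.C14
import Vale.Agent.P236C.D.Xs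

/-!
# P236X: exactness of the resolution
-/

namespace Vale.Agent.P236X.Ce

open Vale.Agent.P236B Vale.Agent.P236C.D
open Vale.Agent.P236C (RD getL mkRes)

/-- the ranks -/
noncomputable def rA (j : ℕ) : ℕ := getL 0 [r0, r1, r2, r3, r4, r5, r6, r7, r8, r9, r10, r11,
    r12, r13, r14, r15, r16, r17, r18, r19, r20, r21, r22, r23, r24, r25, r26, r27, r28, r29,
    r30, r31, r32, r33] j

theorem lvA : ∀ j ≤ 33, LvOk 90 (dsA j) (dsA (j + 1)) (xsA j) (rA j)
  | 0, _ => lv0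
  | 1, _ => lv1
  | 2, _ => lv2
  | 3, _ => lv3
  | 4, _ => lv4
  | 5, _ => lv5
  | 6, _ => lv6
  | 7, _ => lv7
  | 8, _ => lv8
  | 9, _ => lv9
  | 10, _ => lv10
  | 11, _ => lv11
  | 12, _ => lv12
  | 13, _ => lv13
  | 14, _ => lv14
  | 15, _ => lv15
  | 16, _ => lv16
  | 17, _ => lv17
  | 18, _ => lv18
  | 19, _ => lv19
  | 20, _ => lv20
  | 21, _ => lv21
  | 22, _ => lv22
  | 23, _ => lv23
  | 24, _ => lv24
  | 25, _ => lv25
  | 26, _ => lv26
  | 27, _ => lv27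
  | 28, _ => lv28
  | 29, _ => lv29
  | 30, _ => lv30
  | 31, _ => lv31
  | 32, _ => lv32
  | 33, _ => lv33
  | _ + 34, h => absurd h (by omega)

theorem tZ : chkZ 90 (dsA 0) (rA 0) = true := by decide +kernel

theorem tA : allN 33 (fun j => chkT 90 (dsA (j + 1)) (rA j) (rA (j + 1))) = true := by
  decide +kernel

/-- **The resolution is exact** in the stages at most `33` and the weights at most `180`. -/
theorem okU (h : (RD.mk 90 dsA xsA).Ok) {N : ℕ} (hN : 0 < N)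
    (hQ : ∀ j ≤ 33, (mkRes _ h).Q N j 180) : (mkRes _ h).OkU N 33 180 :=
  okU_link h hN lvA tZ (allN_spec tA) hQ

end Vale.Agent.P236X.Ce
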