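import Vale.Agent.P236X.Link
import Vale.Agent.P236C.D.L
import Vale.Agent.P236C.D.Xs0
import Vale.Agent.P236C.D.Xs1
import Vale.Agent.P236C.D.Xs2

/-!
# P236X: the certificates of exactness, part 0
-/

namespace Vale.Agent.P236X.Ce

open Vale.Agent.P236C.D

/-- the ranks -/
def r0 : ℕ := nat_lit
    3954973540827963150190619644888344016007885940491273341062846955241310648219235857886239293877454464156991841161486626936379583241090679783688265519533962943299361160882341798151055964465685401626339068842226216562248888503340514594202524782513415761112622601060706094805214062745919928154264290350450832451906430366983738438891354616677768214620150942055792778949274615041231131123512009012396643119041364380547667325667886922540843008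

/-- elements with leading terms -/
def gb0_0 : List El := [⟨nat_lit 1, nat_lit 0, nat_lit 0, nat_lit 0, [(nat_lit 1, nat_lit 0,
    nat_lit 0, nat_lit 0, nat_lit 0, nat_lit 0)]⟩, ⟨nat_lit 3, nat_lit 0, nat_lit 0, nat_lit 0,
    [(nat_lit 1, nat_lit 1, nat_lit 0, nat_lit 0, nat_lit 0, nat_lit 0)]⟩, ⟨nat_lit 0, nat_lit 1,
    nat_lit 0, nat_lit 0, [(nat_lit 2, nat_lit 0, nat_lit 3, nat_lit 0, nat_lit 0, nat_lit 0),
    (nat_lit 1, nat_lit 1, nat_lit 1, nat_lit 0, nat_lit 0, nat_lit 0)]⟩, ⟨nat_lit 9, nat_lit 0,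
    nat_lit 0, nat_lit 0, [(nat_lit 1, nat_lit 2, nat_lit 0, nat_lit 0, nat_lit 0, nat_lit 0)]⟩,
    ⟨nat_lit 0, nat_lit 3, nat_lit 0, nat_lit 0, [(nat_lit 2, nat_lit 0, nat_lit 3, nat_lit 2,
    nat_lit 0, nat_lit 0), (nat_lit 2, nat_lit 1, nat_lit 9, nat_lit 0, nat_lit 0, nat_lit 0),
    (nat_lit 1, nat_lit 2, nat_lit 3, nat_lit 0, nat_lit 0, nat_lit 0)]⟩, ⟨nat_lit 0, nat_lit 0,
    nat_lit 1, nat_lit 0, [(nat_lit 1, nat_lit 0, nat_lit 12, nat_lit 0, nat_lit 0, nat_lit 0),
    (nat_lit 2, nat_lit 1, nat_lit 10, nat_lit 0, nat_lit 0, nat_lit 0), (nat_lit 1, nat_lit 2,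
    nat_lit 0, nat_lit 1, nat_lit 0, nat_lit 0)]⟩, ⟨nat_lit 27, nat_lit 0, nat_lit 0, nat_lit 0,
    [(nat_lit 1, nat_lit 3, nat_lit 0, nat_lit 0, nat_lit 0, nat_lit 0)]⟩, ⟨nat_lit 0, nat_lit 9,
    nat_lit 0, nat_lit 0, [(nat_lit 1, nat_lit 0, nat_lit 15, nat_lit 5, nat_lit 0, nat_lit 0),
    (nat_lit 2, nat_lit 0, nat_lit 3, nat_lit 8, nat_lit 0, nat_lit 0), (nat_lit 2, nat_lit 1,
    nat_lit 9, nat_lit 6, nat_lit 0, nat_lit 0), (nat_lit 2, nat_lit 2, nat_lit 27, nat_lit 0,
    nat_lit 0, nat_lit 0), (nat_lit 1, nat_lit 3, nat_lit 9, nat_lit 0, nat_lit 0, nat_lit 0)]⟩,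
    ⟨nat_lit 0, nat_lit 0, nat_lit 3, nat_lit 0, [(nat_lit 1, nat_lit 0, nat_lit 30, nat_lit 2,
    nat_lit 0, nat_lit 0), (nat_lit 2, nat_lit 0, nat_lit 21, nat_lit 1, nat_lit 1, nat_lit 0),
    (nat_lit 1, nat_lit 0, nat_lit 12, nat_lit 0, nat_lit 2, nat_lit 0), (nat_lit 1, nat_lit 1,
    nat_lit 36, nat_lit 0, nat_lit 0, nat_lit 0), (nat_lit 1, nat_lit 1, nat_lit 19, nat_lit 1,
    nat_lit 1, nat_lit 0), (nat_lit 2, nat_lit 1, nat_lit 10, nat_lit 0, nat_lit 2, nat_lit 0),
    (nat_lit 2, nat_lit 2, nat_lit 30, nat_lit 0, nat_lit 0, nat_lit 0), (nat_lit 1, nat_lit 3,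
    nat_lit 0, nat_lit 3, nat_lit 0, nat_lit 0)]⟩, ⟨nat_lit 0, nat_lit 0, nat_lit 0, nat_lit 1,
    [(nat_lit 2, nat_lit 0, nat_lit 39, nat_lit 0, nat_lit 0, nat_lit 0), (nat_lit 1, nat_lit 1,
    nat_lit 37, nat_lit 0, nat_lit 0, nat_lit 0), (nat_lit 1, nat_lit 1, nat_lit 25, nat_lit 3,
    nat_lit 0, nat_lit 0), (nat_lit 2, nat_lit 2, nat_lit 27, nat_lit 1, nat_lit 0, nat_lit 0),
    (nat_lit 1, nat_lit 3, nat_lit 0, nat_lit 0, nat_lit 1, nat_lit 0)]⟩, ⟨nat_lit 81, nat_lit 0,
    nat_lit 0, nat_lit 0, [(nat_lit 1, nat_lit 4, nat_lit 0, nat_lit 0, nat_lit 0, nat_lit 0)]⟩]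

/-- elements with leading terms -/
def gb0 : List (List El) := [gb0_0]

/-- values -/
def tb0_0 : List ℕ := [nat_lit 1]

/-- values -/
def tb0_1 : List ℕ := [nat_lit 1]

/-- values -/
def tb0_2 : List ℕ := [nat_lit 1]

/-- values -/
def tb0_3 : List ℕ := [nat_lit 1]

/-- values -/
def tb0_4 : List ℕ := [nat_lit 1]

/-- values -/
def tb0 : List (List ℕ) := [tb0_0, tb0_1, tb0_2, tb0_3, tb0_4]

theorem v0 : chkV 90 ds0 ds1 xs0 tb0 = true := by decide +kernel

theorem p0 : chkP ds0 ds1 tb0 gb0 = true := by decide +kernel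

theorem c0 : chkC 90 ds0 gb0 r0 = true := by decide +kernel

theorem lv0 : LvOk 90 ds0 ds1 xs0 r0 := ⟨_, _, v0, p0, c0⟩

/-- the ranks -/
def r1 : ℕ := nat_lit
    8548827647808092141176848436821539632567777797864350188274368318232057184611967098403167178012575115040844373361283915955190480917951056661599968459291820957144414132091600227417267869881891702366204565084177414917144803046705170405587163143412408668681380745170831135915673582947388096192482492728524425641813312632587543250833920028984924495111172290243371933279777994261162734976389701224681681726633165850463900945520466587985903616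

/-- elements with leading terms -/
def gb1_0 : List El := [⟨nat_lit 2, nat_lit 0, nat_lit 0, nat_lit 0, [(nat_lit 1, nat_lit 0,
    nat_lit 0, nat_lit 0, nat_lit 0, nat_lit 0)]⟩]

/-- elements with leading terms -/
def gb1_1 : List El := [⟨nat_lit 2, nat_lit 0, nat_lit 0, nat_lit 0, [(nat_lit 1, nat_lit 1,
    nat_lit 0, nat_lit 0, nat_lit 0, nat_lit 0)]⟩, ⟨nat_lit 4, nat_lit 0, nat_lit 0, nat_lit 0,
    [(nat_lit 1, nat_lit 2, nat_lit 0, nat_lit 0, nat_lit 0, nat_lit 0)]⟩, ⟨nat_lit 6, nat_lit 0,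
    nat_lit 0, nat_lit 0, [(nat_lit 1, nat_lit 3, nat_lit 0, nat_lit 0, nat_lit 0, nat_lit 0)]⟩,
    ⟨nat_lit 1, nat_lit 2, nat_lit 0, nat_lit 0, [(nat_lit 2, nat_lit 1, nat_lit 3, nat_lit 1,
    nat_lit 0, nat_lit 0), (nat_lit 1, nat_lit 3, nat_lit 3, nat_lit 0, nat_lit 0, nat_lit 0)]⟩]

/-- elements with leading terms -/
def gb1_2 : List El := [⟨nat_lit 1, nat_lit 0, nat_lit 0, nat_lit 0, [(nat_lit 1, nat_lit 4,
    nat_lit 0, nat_lit 0, nat_lit 0, nat_lit 0)]⟩, ⟨nat_lit 6, nat_lit 0, nat_lit 0, nat_lit 0,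
    [(nat_lit 1, nat_lit 5, nat_lit 0, nat_lit 0, nat_lit 0, nat_lit 0)]⟩, ⟨nat_lit 3, nat_lit 1,
    nat_lit 0, nat_lit 0, [(nat_lit 2, nat_lit 4, nat_lit 6, nat_lit 0, nat_lit 0, nat_lit 0),
    (nat_lit 1, nat_lit 5, nat_lit 1, nat_lit 0, nat_lit 0, nat_lit 0)]⟩, ⟨nat_lit 0, nat_lit 2,
    nat_lit 0, nat_lit 0, [(nat_lit 1, nat_lit 4, nat_lit 7, nat_lit 0, nat_lit 0, nat_lit 0),
    (nat_lit 2, nat_lit 4, nat_lit 3, nat_lit 1, nat_lit 0, nat_lit 0), (nat_lit 1, nat_lit 5,
    nat_lit 2, nat_lit 0, nat_lit 0, nat_lit 0)]⟩, ⟨nat_lit 12, nat_lit 0, nat_lit 0, nat_lit 0,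
    [(nat_lit 1, nat_lit 6, nat_lit 0, nat_lit 0, nat_lit 0, nat_lit 0)]⟩, ⟨nat_lit 9, nat_lit 1,
    nat_lit 0, nat_lit 0, [(nat_lit 1, nat_lit 4, nat_lit 12, nat_lit 0, nat_lit 0, nat_lit 0),
    (nat_lit 1, nat_lit 6, nat_lit 1, nat_lit 0, nat_lit 0, nat_lit 0)]⟩, ⟨nat_lit 0, nat_lit 4,
    nat_lit 0, nat_lit 0, [(nat_lit 1, nat_lit 4, nat_lit 15, nat_lit 0, nat_lit 0, nat_lit 0),
    (nat_lit 1, nat_lit 5, nat_lit 10, nat_lit 0, nat_lit 0, nat_lit 0), (nat_lit 1, nat_lit 6,
    nat_lit 4, nat_lit 0, nat_lit 0, nat_lit 0)]⟩, ⟨nat_lit 18, nat_lit 0, nat_lit 0, nat_lit 0,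
    [(nat_lit 1, nat_lit 7, nat_lit 0, nat_lit 0, nat_lit 0, nat_lit 0)]⟩, ⟨nat_lit 3, nat_lit 6,
    nat_lit 0, nat_lit 0, [(nat_lit 2, nat_lit 4, nat_lit 6, nat_lit 5, nat_lit 0, nat_lit 0),
    (nat_lit 2, nat_lit 5, nat_lit 9, nat_lit 3, nat_lit 0, nat_lit 0), (nat_lit 1, nat_lit 7,
    nat_lit 9, nat_lit 0, nat_lit 0, nat_lit 0)]⟩, ⟨nat_lit 0, nat_lit 1, nat_lit 2, nat_lit 0,
    [(nat_lit 2, nat_lit 4, nat_lit 25, nat_lit 1, nat_lit 0, nat_lit 0), (nat_lit 1, nat_lit 4,
    nat_lit 13, nat_lit 4, nat_lit 0, nat_lit 0), (nat_lit 1, nat_lit 4, nat_lit 16, nat_lit 0,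
    nat_lit 1, nat_lit 0), (nat_lit 1, nat_lit 4, nat_lit 12, nat_lit 1, nat_lit 1, nat_lit 0),
    (nat_lit 2, nat_lit 5, nat_lit 11, nat_lit 0, nat_lit 1, nat_lit 0), (nat_lit 2, nat_lit 6,
    nat_lit 18, nat_lit 0, nat_lit 0, nat_lit 0), (nat_lit 1, nat_lit 7, nat_lit 0, nat_lit 3,
    nat_lit 0, nat_lit 0)]⟩]

/-- elements with leading terms -/
def gb1_3 : List El := [⟨nat_lit 1, nat_lit 0, nat_lit 0, nat_lit 0, [(nat_lit 1, nat_lit 8,
    nat_lit 0, nat_lit 0, nat_lit 0, nat_lit 0)]⟩, ⟨nat_lit 3, nat_lit 0, nat_lit 0, nat_lit 0,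
    [(nat_lit 1, nat_lit 9, nat_lit 0, nat_lit 0, nat_lit 0, nat_lit 0)]⟩, ⟨nat_lit 0, nat_lit 1,
    nat_lit 0, nat_lit 0, [(nat_lit 2, nat_lit 8, nat_lit 3, nat_lit 0, nat_lit 0, nat_lit 0),
    (nat_lit 1, nat_lit 9, nat_lit 1, nat_lit 0, nat_lit 0, nat_lit 0)]⟩, ⟨nat_lit 18, nat_lit 0,
    nat_lit 0, nat_lit 0, [(nat_lit 1, nat_lit 10, nat_lit 0, nat_lit 0, nat_lit 0, nat_lit 0)]⟩,
    ⟨nat_lit 9, nat_lit 3, nat_lit 0, nat_lit 0, [(nat_lit 2, nat_lit 8, nat_lit 12, nat_lit 2,
    nat_lit 0, nat_lit 0), (nat_lit 2, nat_lit 9, nat_lit 18, nat_lit 0, nat_lit 0, nat_lit 0),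
    (nat_lit 1, nat_lit 10, nat_lit 3, nat_lit 0, nat_lit 0, nat_lit 0)]⟩, ⟨nat_lit 9, nat_lit 0,
    nat_lit 1, nat_lit 0, [(nat_lit 1, nat_lit 8, nat_lit 21, nat_lit 0, nat_lit 0, nat_lit 0),
    (nat_lit 2, nat_lit 9, nat_lit 19, nat_lit 0, nat_lit 0, nat_lit 0), (nat_lit 1, nat_lit 10,
    nat_lit 0, nat_lit 1, nat_lit 0, nat_lit 0)]⟩, ⟨nat_lit 0, nat_lit 6, nat_lit 0, nat_lit 0,
    [(nat_lit 1, nat_lit 8, nat_lit 19, nat_lit 1, nat_lit 0, nat_lit 0), (nat_lit 1, nat_lit 8,
    nat_lit 15, nat_lit 2, nat_lit 0, nat_lit 0), (nat_lit 2, nat_lit 8, nat_lit 3, nat_lit 5,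
    nat_lit 0, nat_lit 0), (nat_lit 1, nat_lit 9, nat_lit 21, nat_lit 0, nat_lit 0, nat_lit 0),
    (nat_lit 2, nat_lit 9, nat_lit 9, nat_lit 3, nat_lit 0, nat_lit 0), (nat_lit 1, nat_lit 10,
    nat_lit 6, nat_lit 0, nat_lit 0, nat_lit 0)]⟩, ⟨nat_lit 0, nat_lit 3, nat_lit 1, nat_lit 0,
    [(nat_lit 2, nat_lit 8, nat_lit 24, nat_lit 0, nat_lit 0, nat_lit 0), (nat_lit 2, nat_lit 8,
    nat_lit 16, nat_lit 2, nat_lit 0, nat_lit 0), (nat_lit 1, nat_lit 8, nat_lit 12, nat_lit 3,
    nat_lit 0, nat_lit 0), (nat_lit 2, nat_lit 8, nat_lit 3, nat_lit 2, nat_lit 1, nat_lit 0),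
    (nat_lit 2, nat_lit 9, nat_lit 22, nat_lit 0, nat_lit 0, nat_lit 0), (nat_lit 2, nat_lit 9,
    nat_lit 10, nat_lit 3, nat_lit 0, nat_lit 0), (nat_lit 2, nat_lit 9, nat_lit 9, nat_lit 0,
    nat_lit 1, nat_lit 0), (nat_lit 1, nat_lit 10, nat_lit 3, nat_lit 1, nat_lit 0, nat_lit 0)]⟩,
    ⟨nat_lit 0, nat_lit 0, nat_lit 2, nat_lit 0, [(nat_lit 2, nat_lit 8, nat_lit 21, nat_lit 1,
    nat_lit 0, nat_lit 0), (nat_lit 1, nat_lit 8, nat_lit 12, nat_lit 0, nat_lit 1, nat_lit 0),
    (nat_lit 1, nat_lit 9, nat_lit 19, nat_lit 1, nat_lit 0, nat_lit 0), (nat_lit 2, nat_lit 9,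
    nat_lit 10, nat_lit 0, nat_lit 1, nat_lit 0), (nat_lit 1, nat_lit 10, nat_lit 0, nat_lit 2,
    nat_lit 0, nat_lit 0)]⟩, ⟨nat_lit 36, nat_lit 0, nat_lit 0, nat_lit 0, [(nat_lit 1, nat_lit
    11, nat_lit 0, nat_lit 0, nat_lit 0, nat_lit 0)]⟩, ⟨nat_lit 27, nat_lit 3, nat_lit 0, nat_lit
    0, [(nat_lit 1, nat_lit 8, nat_lit 30, nat_lit 2, nat_lit 0, nat_lit 0), (nat_lit 1, nat_lit
    9, nat_lit 36, nat_lit 0, nat_lit 0, nat_lit 0), (nat_lit 1, nat_lit 11, nat_lit 3, nat_lit
    0, nat_lit 0, nat_lit 0)]⟩, ⟨nat_lit 27, nat_lit 0, nat_lit 1, nat_lit 0, [(nat_lit 2,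
    nat_lit 8, nat_lit 39, nat_lit 0, nat_lit 0, nat_lit 0), (nat_lit 1, nat_lit 8, nat_lit 3,
    nat_lit 9, nat_lit 0, nat_lit 0), (nat_lit 1, nat_lit 9, nat_lit 37, nat_lit 0, nat_lit 0,
    nat_lit 0), (nat_lit 2, nat_lit 9, nat_lit 1, nat_lit 9, nat_lit 0, nat_lit 0), (nat_lit 1,
    nat_lit 11, nat_lit 0, nat_lit 1, nat_lit 0, nat_lit 0)]⟩, ⟨nat_lit 0, nat_lit 12, nat_lit 0,
    nat_lit 0, [(nat_lit 1, nat_lit 8, nat_lit 43, nat_lit 1, nat_lit 0, nat_lit 0), (nat_lit 2,
    nat_lit 8, nat_lit 15, nat_lit 8, nat_lit 0, nat_lit 0), (nat_lit 2, nat_lit 8, nat_lit 7,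
    nat_lit 10, nat_lit 0, nat_lit 0), (nat_lit 1, nat_lit 8, nat_lit 3, nat_lit 11, nat_lit 0,
    nat_lit 0), (nat_lit 1, nat_lit 9, nat_lit 45, nat_lit 0, nat_lit 0, nat_lit 0), (nat_lit 1,
    nat_lit 10, nat_lit 30, nat_lit 0, nat_lit 0, nat_lit 0), (nat_lit 1, nat_lit 11, nat_lit 12,
    nat_lit 0, nat_lit 0, nat_lit 0)]⟩, ⟨nat_lit 0, nat_lit 9, nat_lit 1, nat_lit 0, [(nat_lit 2,
    nat_lit 8, nat_lit 48, nat_lit 0, nat_lit 0, nat_lit 0), (nat_lit 1, nat_lit 8, nat_lit 16,
    nat_lit 8, nat_lit 0, nat_lit 0), (nat_lit 2, nat_lit 8, nat_lit 15, nat_lit 5, nat_lit 1,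
    nat_lit 0), (nat_lit 1, nat_lit 8, nat_lit 7, nat_lit 7, nat_lit 1, nat_lit 0), (nat_lit 1,
    nat_lit 8, nat_lit 3, nat_lit 8, nat_lit 1, nat_lit 0), (nat_lit 1, nat_lit 9, nat_lit 46,
    nat_lit 0, nat_lit 0, nat_lit 0), (nat_lit 1, nat_lit 9, nat_lit 34, nat_lit 3, nat_lit 0,
    nat_lit 0), (nat_lit 1, nat_lit 9, nat_lit 9, nat_lit 6, nat_lit 1, nat_lit 0), (nat_lit 1,
    nat_lit 10, nat_lit 27, nat_lit 1, nat_lit 0, nat_lit 0), (nat_lit 1, nat_lit 11, nat_lit 9,
    nat_lit 1, nat_lit 0, nat_lit 0)]⟩, ⟨nat_lit 0, nat_lit 0, nat_lit 4, nat_lit 0, [(nat_lit 2,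
    nat_lit 8, nat_lit 51, nat_lit 0, nat_lit 0, nat_lit 0), (nat_lit 2, nat_lit 8, nat_lit 43,
    nat_lit 2, nat_lit 0, nat_lit 0), (nat_lit 1, nat_lit 8, nat_lit 3, nat_lit 12, nat_lit 0,
    nat_lit 0), (nat_lit 2, nat_lit 8, nat_lit 30, nat_lit 2, nat_lit 1, nat_lit 0), (nat_lit 1,
    nat_lit 8, nat_lit 21, nat_lit 1, nat_lit 2, nat_lit 0), (nat_lit 2, nat_lit 8, nat_lit 12,
    nat_lit 0, nat_lit 3, nat_lit 0), (nat_lit 2, nat_lit 9, nat_lit 49, nat_lit 0, nat_lit 0,
    nat_lit 0), (nat_lit 2, nat_lit 9, nat_lit 25, nat_lit 6, nat_lit 0, nat_lit 0), (nat_lit 2,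
    nat_lit 9, nat_lit 1, nat_lit 12, nat_lit 0, nat_lit 0), (nat_lit 2, nat_lit 9, nat_lit 36,
    nat_lit 0, nat_lit 1, nat_lit 0), (nat_lit 2, nat_lit 9, nat_lit 19, nat_lit 1, nat_lit 2,
    nat_lit 0), (nat_lit 1, nat_lit 9, nat_lit 10, nat_lit 0, nat_lit 3, nat_lit 0), (nat_lit 1,
    nat_lit 10, nat_lit 30, nat_lit 1, nat_lit 0, nat_lit 0), (nat_lit 1, nat_lit 11, nat_lit 0,
    nat_lit 4, nat_lit 0, nat_lit 0)]⟩, ⟨nat_lit 54, nat_lit 0, nat_lit 0, nat_lit 0, [(nat_lit
    1, nat_lit 12, nat_lit 0, nat_lit 0, nat_lit 0, nat_lit 0)]⟩]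

/-- elements with leading terms -/
def gb1_4 : List El := [⟨nat_lit 1, nat_lit 0, nat_lit 0, nat_lit 0, [(nat_lit 1, nat_lit 13,
    nat_lit 0, nat_lit 0, nat_lit 0, nat_lit 0)]⟩, ⟨nat_lit 3, nat_lit 0, nat_lit 0, nat_lit 0,
    [(nat_lit 1, nat_lit 14, nat_lit 0, nat_lit 0, nat_lit 0, nat_lit 0)]⟩, ⟨nat_lit 0, nat_lit
    1, nat_lit 0, nat_lit 0, [(nat_lit 2, nat_lit 13, nat_lit 3, nat_lit 0, nat_lit 0, nat_lit
    0), (nat_lit 1, nat_lit 14, nat_lit 1, nat_lit 0, nat_lit 0, nat_lit 0)]⟩, ⟨nat_lit 9,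
    nat_lit 0, nat_lit 0, nat_lit 0, [(nat_lit 1, nat_lit 15, nat_lit 0, nat_lit 0, nat_lit 0,
    nat_lit 0)]⟩]

/-- elements with leading terms -/
def gb1 : List (List El) := [gb1_0, gb1_1, gb1_2, gb1_3, gb1_4]

/-- values -/
def tb1_0 : List ℕ := [nat_lit 1]

/-- values -/
def tb1_1 : List ℕ := [nat_lit 9, nat_lit 1]

/-- values -/
def tb1_2 : List ℕ := [nat_lit 2, nat_lit 6]

/-- values -/
def tb1_3 : List ℕ := [nat_lit 4, nat_lit 1]

/-- values -/
def tb1_4 : List ℕ := [nat_lit 2, nat_lit 2, nat_lit 1]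

/-- values -/
def tb1_5 : List ℕ := [nat_lit 20, nat_lit 129, nat_lit 1]

/-- values -/
def tb1_6 : List ℕ := [nat_lit 144115188075855876, nat_lit 72057594037927954, nat_lit 66]

/-- values -/
def tb1_7 : List ℕ := [nat_lit 256, nat_lit 432345564227567712, nat_lit 1]

/-- values -/
def tb1_8 : List ℕ := [nat_lit 2, nat_lit 2, nat_lit 0, nat_lit 1]

/-- values -/
def tb1_9 : List ℕ := [nat_lit 8, nat_lit 2, nat_lit 2, nat_lit 1]

/-- values -/
def tb1_10 : List ℕ := [nat_lit 51922968585348576044896161072449792, nat_lit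
    126237717373128610505233707074457664, nat_lit 524289, nat_lit 1]

/-- values -/
def tb1_11 : List ℕ := [nat_lit
    57586096570152964846703141275597286749621136045501286288721640752318856709022671242174289605169723443863346922602242353266630790029282713627470753319709505423933696,
    nat_lit
    35991310356345833988634209875617550754602659046054268434736012395424910607007670449861655844770716291109758378845441206759537054940609390946802851976895355835909216,
    nat_lit 374144419156711230136893053732628956263933708079106, nat_lit 262146]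

/-- values -/
def tb1_12 : List ℕ := [nat_lit
    151771007205135137585476295771875983381527972130330433178152835110092436757704343552, nat_lit
    242833611528216160824879405503579657997315942326501072444794166423949364915473481728, nat_lit
    15177100720513619576338298143472587991245380327260403704546880942060093905291190272, nat_lit
    1]

/-- values -/
def tb1_13 : List ℕ := [nat_lit 2, nat_lit 2, nat_lit 0, nat_lit 0, nat_lit 1]

/-- values -/
def tb1_14 : List ℕ := [nat_lit 8, nat_lit 2, nat_lit 2, nat_lit 0, nat_lit 1]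

/-- values -/
def tb1_15 : List ℕ := [nat_lit
    1277337798102220679460078536343576682283168806678692826561630235159815610796137002102373097915286848697179165980283196956142360312687072136013375778302241894801564766275759079199753207531771654455761190381698200835899160255536962991926842684024883175958688991421137938689727425577568361045295616,
    nat_lit
    199584030953471981165637271303683856606745126043545754150254724243721189186896406578495796549263570108934244684419249524397243798857355021252089965359725296062744494730587356124961438676839321008712685997140343880609243789927650467488569169378887996243545154909552802920269910895013402754678912,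
    nat_lit 2, nat_lit 2, nat_lit 1]

/-- values -/
def tb1 : List (List ℕ) := [tb1_0, tb1_1, tb1_2, tb1_3, tb1_4, tb1_5, tb1_6, tb1_7, tb1_8, tb1_9,
    tb1_10, tb1_11, tb1_12, tb1_13, tb1_14, tb1_15]

theorem v1 : chkV 90 ds1 ds2 xs1 tb1 = true := by decide +kernel

theorem p1 : chkP ds1 ds2 tb1 gb1 = true := by decide +kernel

theorem c1 : chkC 90 ds1 gb1 r1 = true := by decide +kernel

theorem lv1 : LvOk 90 ds1 ds2 xs1 r1 := ⟨_, _, v1, p1, c1⟩

/-- the ranks -/
def r2 : ℕ := nat_lit
    19561905194302793045952389901620414032106396503857341309975654496373372011977847427564788036073423076788196087451936396700951692074928244784474326168587761327607941538735504232016539800617730744288426208668538676096160876064378674723694863098599367050506366864683237967772503620672294042672298823859954336384056525719091305810898569266234396139959928271396215840170215956410506374964811110689234819168701488596831990531418916211310723072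

/-- elements with leading terms -/
def gb2_0 : List El := [⟨nat_lit 1, nat_lit 0, nat_lit 0, nat_lit 0, [(nat_lit 1, nat_lit 0,
    nat_lit 0, nat_lit 0, nat_lit 0, nat_lit 0)]⟩]

/-- elements with leading terms -/
def gb2_1 : List El := [⟨nat_lit 1, nat_lit 0, nat_lit 0, nat_lit 0, [(nat_lit 1, nat_lit 1,
    nat_lit 0, nat_lit 0, nat_lit 0, nat_lit 0)]⟩]

/-- elements with leading terms -/
def gb2_2 : List El := [⟨nat_lit 1, nat_lit 0, nat_lit 0, nat_lit 0, [(nat_lit 1, nat_lit 2,
    nat_lit 0, nat_lit 0, nat_lit 0, nat_lit 0)]⟩, ⟨nat_lit 6, nat_lit 2, nat_lit 0, nat_lit 0,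
    [(nat_lit 2, nat_lit 3, nat_lit 3, nat_lit 2, nat_lit 0, nat_lit 0), (nat_lit 1, nat_lit 4,
    nat_lit 1, nat_lit 2, nat_lit 0, nat_lit 0)]⟩]

/-- elements with leading terms -/
def gb2_3 : List El := [⟨nat_lit 1, nat_lit 0, nat_lit 0, nat_lit 0, [(nat_lit 1, nat_lit 3,
    nat_lit 0, nat_lit 0, nat_lit 0, nat_lit 0)]⟩, ⟨nat_lit 0, nat_lit 1, nat_lit 0, nat_lit 0,
    [(nat_lit 2, nat_lit 3, nat_lit 3, nat_lit 0, nat_lit 0, nat_lit 0), (nat_lit 1, nat_lit 4,
    nat_lit 1, nat_lit 0, nat_lit 0, nat_lit 0)]⟩, ⟨nat_lit 6, nat_lit 0, nat_lit 0, nat_lit 0,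
    [(nat_lit 1, nat_lit 5, nat_lit 0, nat_lit 0, nat_lit 0, nat_lit 0)]⟩]

/-- elements with leading terms -/
def gb2_4 : List El := [⟨nat_lit 2, nat_lit 0, nat_lit 0, nat_lit 0, [(nat_lit 1, nat_lit 4,
    nat_lit 0, nat_lit 0, nat_lit 0, nat_lit 0)]⟩]

/-- elements with leading terms -/
def gb2_5 : List El := [⟨nat_lit 3, nat_lit 0, nat_lit 0, nat_lit 0, [(nat_lit 1, nat_lit 6,
    nat_lit 0, nat_lit 0, nat_lit 0, nat_lit 0)]⟩, ⟨nat_lit 2, nat_lit 1, nat_lit 0, nat_lit 0,
    [(nat_lit 1, nat_lit 6, nat_lit 3, nat_lit 0, nat_lit 0, nat_lit 0), (nat_lit 1, nat_lit 7,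
    nat_lit 0, nat_lit 0, nat_lit 0, nat_lit 0)]⟩, ⟨nat_lit 1, nat_lit 2, nat_lit 0, nat_lit 0,
    [(nat_lit 2, nat_lit 6, nat_lit 6, nat_lit 0, nat_lit 0, nat_lit 0), (nat_lit 1, nat_lit 6,
    nat_lit 2, nat_lit 1, nat_lit 0, nat_lit 0)]⟩]

/-- elements with leading terms -/
def gb2_6 : List El := [⟨nat_lit 2, nat_lit 0, nat_lit 0, nat_lit 0, [(nat_lit 1, nat_lit 8,
    nat_lit 0, nat_lit 0, nat_lit 0, nat_lit 0)]⟩, ⟨nat_lit 3, nat_lit 0, nat_lit 0, nat_lit 0,
    [(nat_lit 1, nat_lit 9, nat_lit 0, nat_lit 0, nat_lit 0, nat_lit 0)]⟩, ⟨nat_lit 1, nat_lit 1,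
    nat_lit 0, nat_lit 0, [(nat_lit 2, nat_lit 8, nat_lit 3, nat_lit 0, nat_lit 0, nat_lit 0),
    (nat_lit 1, nat_lit 9, nat_lit 2, nat_lit 0, nat_lit 0, nat_lit 0)]⟩, ⟨nat_lit 0, nat_lit 2,
    nat_lit 0, nat_lit 0, [(nat_lit 2, nat_lit 8, nat_lit 6, nat_lit 0, nat_lit 0, nat_lit 0),
    (nat_lit 2, nat_lit 9, nat_lit 5, nat_lit 0, nat_lit 0, nat_lit 0), (nat_lit 1, nat_lit 9,
    nat_lit 1, nat_lit 1, nat_lit 0, nat_lit 0)]⟩, ⟨nat_lit 9, nat_lit 1, nat_lit 0, nat_lit 0,
    [(nat_lit 2, nat_lit 9, nat_lit 10, nat_lit 0, nat_lit 0, nat_lit 0), (nat_lit 2, nat_lit 10,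
    nat_lit 6, nat_lit 0, nat_lit 0, nat_lit 0), (nat_lit 2, nat_lit 11, nat_lit 4, nat_lit 0,
    nat_lit 0, nat_lit 0), (nat_lit 1, nat_lit 11, nat_lit 0, nat_lit 1, nat_lit 0, nat_lit 0)]⟩,
    ⟨nat_lit 19, nat_lit 3, nat_lit 0, nat_lit 0, [(nat_lit 2, nat_lit 8, nat_lit 21, nat_lit 2,
    nat_lit 0, nat_lit 0), (nat_lit 2, nat_lit 10, nat_lit 24, nat_lit 0, nat_lit 0, nat_lit 0),
    (nat_lit 2, nat_lit 10, nat_lit 16, nat_lit 2, nat_lit 0, nat_lit 0), (nat_lit 2, nat_lit 11,
    nat_lit 22, nat_lit 0, nat_lit 0, nat_lit 0), (nat_lit 1, nat_lit 11, nat_lit 18, nat_lit 1,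
    nat_lit 0, nat_lit 0)]⟩, ⟨nat_lit 18, nat_lit 6, nat_lit 0, nat_lit 0, [(nat_lit 1, nat_lit
    9, nat_lit 23, nat_lit 4, nat_lit 0, nat_lit 0), (nat_lit 2, nat_lit 10, nat_lit 19, nat_lit
    4, nat_lit 0, nat_lit 0), (nat_lit 1, nat_lit 10, nat_lit 15, nat_lit 5, nat_lit 0, nat_lit
    0), (nat_lit 2, nat_lit 10, nat_lit 7, nat_lit 7, nat_lit 0, nat_lit 0), (nat_lit 2, nat_lit
    11, nat_lit 21, nat_lit 3, nat_lit 0, nat_lit 0), (nat_lit 2, nat_lit 11, nat_lit 9, nat_lit
    6, nat_lit 0, nat_lit 0), (nat_lit 1, nat_lit 16, nat_lit 18, nat_lit 0, nat_lit 0, nat_lit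
    0)]⟩, ⟨nat_lit 19, nat_lit 0, nat_lit 2, nat_lit 0, [(nat_lit 1, nat_lit 10, nat_lit 12,
    nat_lit 0, nat_lit 2, nat_lit 0), (nat_lit 2, nat_lit 11, nat_lit 10, nat_lit 0, nat_lit 2,
    nat_lit 0), (nat_lit 1, nat_lit 12, nat_lit 6, nat_lit 1, nat_lit 2, nat_lit 0), (nat_lit 2,
    nat_lit 14, nat_lit 6, nat_lit 0, nat_lit 2, nat_lit 0), (nat_lit 1, nat_lit 15, nat_lit 0,
    nat_lit 1, nat_lit 2, nat_lit 0)]⟩, ⟨nat_lit 0, nat_lit 7, nat_lit 2, nat_lit 0, [(nat_lit 1,
    nat_lit 9, nat_lit 25, nat_lit 0, nat_lit 2, nat_lit 0), (nat_lit 1, nat_lit 9, nat_lit 13,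
    nat_lit 3, nat_lit 2, nat_lit 0), (nat_lit 2, nat_lit 9, nat_lit 9, nat_lit 4, nat_lit 2,
    nat_lit 0), (nat_lit 1, nat_lit 9, nat_lit 1, nat_lit 6, nat_lit 2, nat_lit 0), (nat_lit 2,
    nat_lit 10, nat_lit 21, nat_lit 0, nat_lit 2, nat_lit 0), (nat_lit 1, nat_lit 11, nat_lit 19,
    nat_lit 0, nat_lit 2, nat_lit 0), (nat_lit 2, nat_lit 11, nat_lit 7, nat_lit 3, nat_lit 2,
    nat_lit 0), (nat_lit 1, nat_lit 12, nat_lit 15, nat_lit 1, nat_lit 2, nat_lit 0), (nat_lit 2,
    nat_lit 14, nat_lit 15, nat_lit 0, nat_lit 2, nat_lit 0), (nat_lit 1, nat_lit 15, nat_lit 9,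
    nat_lit 1, nat_lit 2, nat_lit 0)]⟩]

/-- elements with leading terms -/
def gb2_7 : List El := [⟨nat_lit 1, nat_lit 0, nat_lit 0, nat_lit 0, [(nat_lit 1, nat_lit 10,
    nat_lit 0, nat_lit 0, nat_lit 0, nat_lit 0)]⟩, ⟨nat_lit 3, nat_lit 0, nat_lit 0, nat_lit 0,
    [(nat_lit 1, nat_lit 11, nat_lit 0, nat_lit 0, nat_lit 0, nat_lit 0)]⟩, ⟨nat_lit 0, nat_lit
    1, nat_lit 0, nat_lit 0, [(nat_lit 2, nat_lit 10, nat_lit 3, nat_lit 0, nat_lit 0, nat_lit
    0), (nat_lit 1, nat_lit 11, nat_lit 1, nat_lit 0, nat_lit 0, nat_lit 0)]⟩, ⟨nat_lit 0,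
    nat_lit 0, nat_lit 1, nat_lit 0, [(nat_lit 1, nat_lit 10, nat_lit 12, nat_lit 0, nat_lit 0,
    nat_lit 0), (nat_lit 2, nat_lit 11, nat_lit 10, nat_lit 0, nat_lit 0, nat_lit 0), (nat_lit 1,
    nat_lit 12, nat_lit 6, nat_lit 1, nat_lit 0, nat_lit 0), (nat_lit 2, nat_lit 14, nat_lit 6,
    nat_lit 0, nat_lit 0, nat_lit 0), (nat_lit 1, nat_lit 15, nat_lit 0, nat_lit 1, nat_lit 0,
    nat_lit 0)]⟩, ⟨nat_lit 18, nat_lit 0, nat_lit 0, nat_lit 0, [(nat_lit 1, nat_lit 16, nat_lit
    0, nat_lit 0, nat_lit 0, nat_lit 0)]⟩, ⟨nat_lit 9, nat_lit 3, nat_lit 0, nat_lit 0, [(nat_lit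
    2, nat_lit 10, nat_lit 12, nat_lit 2, nat_lit 0, nat_lit 0), (nat_lit 2, nat_lit 11, nat_lit
    18, nat_lit 0, nat_lit 0, nat_lit 0), (nat_lit 1, nat_lit 16, nat_lit 3, nat_lit 0, nat_lit
    0, nat_lit 0)]⟩, ⟨nat_lit 0, nat_lit 6, nat_lit 0, nat_lit 0, [(nat_lit 1, nat_lit 10,
    nat_lit 19, nat_lit 1, nat_lit 0, nat_lit 0), (nat_lit 1, nat_lit 10, nat_lit 15, nat_lit 2,
    nat_lit 0, nat_lit 0), (nat_lit 2, nat_lit 10, nat_lit 3, nat_lit 5, nat_lit 0, nat_lit 0),
    (nat_lit 1, nat_lit 11, nat_lit 21, nat_lit 0, nat_lit 0, nat_lit 0), (nat_lit 2, nat_lit 11,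
    nat_lit 9, nat_lit 3, nat_lit 0, nat_lit 0), (nat_lit 1, nat_lit 16, nat_lit 6, nat_lit 0,
    nat_lit 0, nat_lit 0)]⟩]

/-- elements with leading terms -/
def gb2_8 : List El := [⟨nat_lit 2, nat_lit 0, nat_lit 0, nat_lit 0, [(nat_lit 1, nat_lit 12,
    nat_lit 0, nat_lit 0, nat_lit 0, nat_lit 0)]⟩]

/-- elements with leading terms -/
def gb2_9 : List El := [⟨nat_lit 2, nat_lit 0, nat_lit 0, nat_lit 0, [(nat_lit 1, nat_lit 13,
    nat_lit 0, nat_lit 0, nat_lit 0, nat_lit 0)]⟩, ⟨nat_lit 4, nat_lit 0, nat_lit 0, nat_lit 0,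
    [(nat_lit 1, nat_lit 14, nat_lit 0, nat_lit 0, nat_lit 0, nat_lit 0)]⟩, ⟨nat_lit 6, nat_lit
    0, nat_lit 0, nat_lit 0, [(nat_lit 1, nat_lit 15, nat_lit 0, nat_lit 0, nat_lit 0, nat_lit
    0)]⟩, ⟨nat_lit 1, nat_lit 2, nat_lit 0, nat_lit 0, [(nat_lit 2, nat_lit 13, nat_lit 3,
    nat_lit 1, nat_lit 0, nat_lit 0), (nat_lit 1, nat_lit 15, nat_lit 3, nat_lit 0, nat_lit 0,
    nat_lit 0)]⟩]

/-- elements with leading terms -/
def gb2_10 : List El := [⟨nat_lit 1, nat_lit 0, nat_lit 0, nat_lit 0, [(nat_lit 1, nat_lit 17,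
    nat_lit 0, nat_lit 0, nat_lit 0, nat_lit 0)]⟩, ⟨nat_lit 9, nat_lit 0, nat_lit 0, nat_lit 0,
    [(nat_lit 1, nat_lit 18, nat_lit 0, nat_lit 0, nat_lit 0, nat_lit 0)]⟩, ⟨nat_lit 6, nat_lit
    1, nat_lit 0, nat_lit 0, [(nat_lit 2, nat_lit 17, nat_lit 9, nat_lit 0, nat_lit 0, nat_lit
    0), (nat_lit 1, nat_lit 18, nat_lit 1, nat_lit 0, nat_lit 0, nat_lit 0)]⟩, ⟨nat_lit 3,
    nat_lit 2, nat_lit 0, nat_lit 0, [(nat_lit 1, nat_lit 17, nat_lit 10, nat_lit 0, nat_lit 0,
    nat_lit 0), (nat_lit 2, nat_lit 17, nat_lit 6, nat_lit 1, nat_lit 0, nat_lit 0), (nat_lit 1,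
    nat_lit 18, nat_lit 2, nat_lit 0, nat_lit 0, nat_lit 0)]⟩, ⟨nat_lit 0, nat_lit 4, nat_lit 0,
    nat_lit 0, [(nat_lit 1, nat_lit 17, nat_lit 7, nat_lit 2, nat_lit 0, nat_lit 0), (nat_lit 2,
    nat_lit 18, nat_lit 3, nat_lit 1, nat_lit 0, nat_lit 0), (nat_lit 1, nat_lit 19, nat_lit 0,
    nat_lit 0, nat_lit 0, nat_lit 0)]⟩, ⟨nat_lit 6, nat_lit 3, nat_lit 0, nat_lit 0, [(nat_lit 1,
    nat_lit 18, nat_lit 9, nat_lit 0, nat_lit 0, nat_lit 0), (nat_lit 1, nat_lit 20, nat_lit 0,
    nat_lit 0, nat_lit 0, nat_lit 0)]⟩, ⟨nat_lit 0, nat_lit 2, nat_lit 1, nat_lit 0, [(nat_lit 2,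
    nat_lit 17, nat_lit 16, nat_lit 1, nat_lit 0, nat_lit 0), (nat_lit 1, nat_lit 17, nat_lit 12,
    nat_lit 2, nat_lit 0, nat_lit 0), (nat_lit 1, nat_lit 18, nat_lit 12, nat_lit 0, nat_lit 0,
    nat_lit 0), (nat_lit 1, nat_lit 18, nat_lit 0, nat_lit 3, nat_lit 0, nat_lit 0), (nat_lit 1,
    nat_lit 20, nat_lit 3, nat_lit 0, nat_lit 0, nat_lit 0)]⟩, ⟨nat_lit 3, nat_lit 6, nat_lit 0,
    nat_lit 0, [(nat_lit 1, nat_lit 17, nat_lit 6, nat_lit 5, nat_lit 0, nat_lit 0), (nat_lit 2,
    nat_lit 18, nat_lit 18, nat_lit 0, nat_lit 0, nat_lit 0), (nat_lit 1, nat_lit 18, nat_lit 6,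
    nat_lit 3, nat_lit 0, nat_lit 0)]⟩, ⟨nat_lit 0, nat_lit 1, nat_lit 2, nat_lit 0, [(nat_lit 1,
    nat_lit 17, nat_lit 25, nat_lit 1, nat_lit 0, nat_lit 0), (nat_lit 2, nat_lit 17, nat_lit 21,
    nat_lit 2, nat_lit 0, nat_lit 0), (nat_lit 2, nat_lit 18, nat_lit 21, nat_lit 0, nat_lit 0,
    nat_lit 0), (nat_lit 1, nat_lit 18, nat_lit 9, nat_lit 3, nat_lit 0, nat_lit 0), (nat_lit 2,
    nat_lit 18, nat_lit 0, nat_lit 2, nat_lit 1, nat_lit 0), (nat_lit 1, nat_lit 20, nat_lit 12,
    nat_lit 0, nat_lit 0, nat_lit 0)]⟩]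

/-- elements with leading terms -/
def gb2_11 : List El := [⟨nat_lit 1, nat_lit 0, nat_lit 0, nat_lit 0, [(nat_lit 1, nat_lit 21,
    nat_lit 0, nat_lit 0, nat_lit 0, nat_lit 0)]⟩, ⟨nat_lit 6, nat_lit 0, nat_lit 0, nat_lit 0,
    [(nat_lit 1, nat_lit 22, nat_lit 0, nat_lit 0, nat_lit 0, nat_lit 0)]⟩, ⟨nat_lit 3, nat_lit
    1, nat_lit 0, nat_lit 0, [(nat_lit 2, nat_lit 21, nat_lit 6, nat_lit 0, nat_lit 0, nat_lit
    0), (nat_lit 1, nat_lit 22, nat_lit 1, nat_lit 0, nat_lit 0, nat_lit 0)]⟩, ⟨nat_lit 0,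
    nat_lit 2, nat_lit 0, nat_lit 0, [(nat_lit 1, nat_lit 21, nat_lit 7, nat_lit 0, nat_lit 0,
    nat_lit 0), (nat_lit 2, nat_lit 21, nat_lit 3, nat_lit 1, nat_lit 0, nat_lit 0), (nat_lit 1,
    nat_lit 22, nat_lit 2, nat_lit 0, nat_lit 0, nat_lit 0)]⟩, ⟨nat_lit 9, nat_lit 0, nat_lit 0,
    nat_lit 0, [(nat_lit 1, nat_lit 23, nat_lit 0, nat_lit 0, nat_lit 0, nat_lit 0)]⟩, ⟨nat_lit
    3, nat_lit 3, nat_lit 0, nat_lit 0, [(nat_lit 2, nat_lit 21, nat_lit 6, nat_lit 2, nat_lit 0,
    nat_lit 0), (nat_lit 2, nat_lit 22, nat_lit 9, nat_lit 0, nat_lit 0, nat_lit 0), (nat_lit 1,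
    nat_lit 23, nat_lit 6, nat_lit 0, nat_lit 0, nat_lit 0)]⟩, ⟨nat_lit 0, nat_lit 4, nat_lit 0,
    nat_lit 0, [(nat_lit 1, nat_lit 21, nat_lit 15, nat_lit 0, nat_lit 0, nat_lit 0), (nat_lit 1,
    nat_lit 21, nat_lit 7, nat_lit 2, nat_lit 0, nat_lit 0), (nat_lit 2, nat_lit 22, nat_lit 10,
    nat_lit 0, nat_lit 0, nat_lit 0), (nat_lit 1, nat_lit 23, nat_lit 3, nat_lit 1, nat_lit 0,
    nat_lit 0)]⟩, ⟨nat_lit 0, nat_lit 1, nat_lit 1, nat_lit 0, [(nat_lit 2, nat_lit 21, nat_lit
    16, nat_lit 0, nat_lit 0, nat_lit 0), (nat_lit 1, nat_lit 21, nat_lit 12, nat_lit 1, nat_lit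
    0, nat_lit 0), (nat_lit 2, nat_lit 22, nat_lit 11, nat_lit 0, nat_lit 0, nat_lit 0), (nat_lit
    1, nat_lit 23, nat_lit 0, nat_lit 2, nat_lit 0, nat_lit 0)]⟩, ⟨nat_lit 0, nat_lit 6, nat_lit
    0, nat_lit 0, [(nat_lit 1, nat_lit 21, nat_lit 7, nat_lit 4, nat_lit 0, nat_lit 0), (nat_lit
    2, nat_lit 21, nat_lit 3, nat_lit 5, nat_lit 0, nat_lit 0), (nat_lit 2, nat_lit 22, nat_lit
    18, nat_lit 0, nat_lit 0, nat_lit 0), (nat_lit 2, nat_lit 23, nat_lit 15, nat_lit 0, nat_lit
    0, nat_lit 0), (nat_lit 1, nat_lit 23, nat_lit 3, nat_lit 3, nat_lit 0, nat_lit 0)]⟩,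
    ⟨nat_lit 0, nat_lit 3, nat_lit 1, nat_lit 0, [(nat_lit 1, nat_lit 21, nat_lit 24, nat_lit 0,
    nat_lit 0, nat_lit 0), (nat_lit 1, nat_lit 21, nat_lit 7, nat_lit 1, nat_lit 1, nat_lit 0),
    (nat_lit 2, nat_lit 21, nat_lit 3, nat_lit 2, nat_lit 1, nat_lit 0), (nat_lit 2, nat_lit 22,
    nat_lit 19, nat_lit 0, nat_lit 0, nat_lit 0), (nat_lit 2, nat_lit 23, nat_lit 12, nat_lit 1,
    nat_lit 0, nat_lit 0), (nat_lit 1, nat_lit 23, nat_lit 0, nat_lit 4, nat_lit 0, nat_lit 0),
    (nat_lit 1, nat_lit 23, nat_lit 3, nat_lit 0, nat_lit 1, nat_lit 0)]⟩, ⟨nat_lit 0, nat_lit 0,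
    nat_lit 2, nat_lit 0, [(nat_lit 2, nat_lit 21, nat_lit 25, nat_lit 0, nat_lit 0, nat_lit 0),
    (nat_lit 1, nat_lit 21, nat_lit 21, nat_lit 1, nat_lit 0, nat_lit 0), (nat_lit 2, nat_lit 22,
    nat_lit 20, nat_lit 0, nat_lit 0, nat_lit 0), (nat_lit 1, nat_lit 22, nat_lit 8, nat_lit 3,
    nat_lit 0, nat_lit 0), (nat_lit 2, nat_lit 23, nat_lit 9, nat_lit 2, nat_lit 0, nat_lit 0),
    (nat_lit 1, nat_lit 23, nat_lit 0, nat_lit 1, nat_lit 1, nat_lit 0)]⟩]

/-- elements with leading terms -/
def gb2_12 : List El := [⟨nat_lit 1, nat_lit 0, nat_lit 0, nat_lit 0, [(nat_lit 1, nat_lit 24,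
    nat_lit 0, nat_lit 0, nat_lit 0, nat_lit 0)]⟩, ⟨nat_lit 3, nat_lit 0, nat_lit 0, nat_lit 0,
    [(nat_lit 1, nat_lit 25, nat_lit 0, nat_lit 0, nat_lit 0, nat_lit 0)]⟩, ⟨nat_lit 0, nat_lit
    1, nat_lit 0, nat_lit 0, [(nat_lit 2, nat_lit 24, nat_lit 3, nat_lit 0, nat_lit 0, nat_lit
    0), (nat_lit 1, nat_lit 25, nat_lit 1, nat_lit 0, nat_lit 0, nat_lit 0)]⟩, ⟨nat_lit 9,
    nat_lit 0, nat_lit 0, nat_lit 0, [(nat_lit 1, nat_lit 29, nat_lit 0, nat_lit 0, nat_lit 0,
    nat_lit 0)]⟩]

/-- elements with leading terms -/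
def gb2_13 : List El := [⟨nat_lit 2, nat_lit 0, nat_lit 0, nat_lit 0, [(nat_lit 1, nat_lit 26,
    nat_lit 0, nat_lit 0, nat_lit 0, nat_lit 0)]⟩]

/-- elements with leading terms -/
def gb2_14 : List El := [⟨nat_lit 2, nat_lit 0, nat_lit 0, nat_lit 0, [(nat_lit 1, nat_lit 27,
    nat_lit 0, nat_lit 0, nat_lit 0, nat_lit 0)]⟩, ⟨nat_lit 4, nat_lit 0, nat_lit 0, nat_lit 0,
    [(nat_lit 1, nat_lit 28, nat_lit 0, nat_lit 0, nat_lit 0, nat_lit 0)]⟩, ⟨nat_lit 6, nat_lit
    0, nat_lit 0, nat_lit 0, [(nat_lit 1, nat_lit 30, nat_lit 0, nat_lit 0, nat_lit 0, nat_lit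
    0)]⟩]

/-- elements with leading terms -/
def gb2 : List (List El) := [gb2_0, gb2_1, gb2_2, gb2_3, gb2_4, gb2_5, gb2_6, gb2_7, gb2_8,
    gb2_9, gb2_10, gb2_11, gb2_12, gb2_13, gb2_14, []]

/-- values -/
def tb2_0 : List ℕ := [nat_lit 1]

/-- values -/
def tb2_1 : List ℕ := [nat_lit 1, nat_lit 1]

/-- values -/
def tb2_2 : List ℕ := [nat_lit 0, nat_lit 2, nat_lit 1]

/-- values -/
def tb2_3 : List ℕ := [nat_lit 0, nat_lit 0, nat_lit 2, nat_lit 1]

/-- values -/
def tb2_4 : List ℕ := [nat_lit 1, nat_lit 4, nat_lit 0, nat_lit 1, nat_lit 1]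

/-- values -/
def tb2_5 : List ℕ := [nat_lit 0, nat_lit 4, nat_lit 16, nat_lit 1]

/-- values -/
def tb2_6 : List ℕ := [nat_lit 0, nat_lit 18014398509481992, nat_lit 16, nat_lit 1, nat_lit 36,
    nat_lit 1]

/-- values -/
def tb2_7 : List ℕ := [nat_lit 0, nat_lit 18014398509482504, nat_lit 0, nat_lit 128, nat_lit 40,
    nat_lit 1]

/-- values -/
def tb2_8 : List ℕ := [nat_lit 72057594037927968, nat_lit 65, nat_lit 8, nat_lit 0, nat_lit
    36028797018964038, nat_lit 1, nat_lit 1]

/-- values -/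
def tb2_9 : List ℕ := [nat_lit 576460752303423488, nat_lit 18014398509482496, nat_lit 32, nat_lit
    128, nat_lit 18014398509482024, nat_lit 2, nat_lit 1]

/-- values -/
def tb2_10 : List ℕ := [nat_lit 512, nat_lit 144115188075855888, nat_lit 576460752303423553,
    nat_lit 0, nat_lit 18, nat_lit 1, nat_lit 0, nat_lit 1]

/-- values -/
def tb2_11 : List ℕ := [nat_lit 288230376151711744, nat_lit 36028797018964484, nat_lit 0, nat_lit
    2, nat_lit 36028797018964264, nat_lit 0, nat_lit 2, nat_lit 1]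

/-- values -/
def tb2_12 : List ℕ := [nat_lit 1, nat_lit 4, nat_lit 0, nat_lit 1, nat_lit 0, nat_lit 0, nat_lit
    0, nat_lit 0, nat_lit 1]

/-- values -/
def tb2_13 : List ℕ := [nat_lit 32, nat_lit 65, nat_lit 8, nat_lit 0, nat_lit 6, nat_lit 1,
    nat_lit 0, nat_lit 0, nat_lit 9, nat_lit 1]

/-- values -/
def tb2_14 : List ℕ := [nat_lit 256, nat_lit 72057594037927952, nat_lit 288230376151711809,
    nat_lit 0, nat_lit 160, nat_lit 2, nat_lit 1, nat_lit 0, nat_lit 2, nat_lit 6]

/-- values -/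
def tb2_15 : List ℕ := [nat_lit 1298074214633707195363000234016768, nat_lit 2305843009213726720,
    nat_lit 324518553658435950155192875352080, nat_lit 1, nat_lit 1544, nat_lit
    324259173170675784, nat_lit 0, nat_lit 1, nat_lit 4, nat_lit 1]

/-- values -/
def tb2_16 : List ℕ := [nat_lit 85672898165824692764241336851234816, nat_lit
    5192296858534827628530496329236480, nat_lit 21418224541456163967688297358032896, nat_lit
    18446744073709555712, nat_lit 5192296858534832240216514756610048, nat_lit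
    1622592768292135165139653408850260, nat_lit 4096, nat_lit 1]

/-- values -/
def tb2_17 : List ℕ := [nat_lit 10384593717069655257060992658457088, nat_lit
    41862893421937647418324710290622496, nat_lit 2596148429267432549239698025877570, nat_lit
    73786976294838222848, nat_lit 1298074214633707483593376386064530, nat_lit
    1622592768292133994203750292521041, nat_lit 2594073385365406272, nat_lit 0, nat_lit 2,
    nat_lit 2, nat_lit 1]

/-- values -/
def tb2_18 : List ℕ := [nat_lit
    3196670515523576044934755563308202297086564498088930458479776726656380660551439995003193449537015778467662777468487833418626475305058056733968039936,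
    nat_lit 664613997892458086331699129030311936, nat_lit
    1598335257761788022467377781654101148543282249044465229239888363328190330275719997501596724768507889233831388734160839959576680996228722360041210896,
    nat_lit 83076749736557260503232014977077248, nat_lit 51922968585348428470943571396001792,
    nat_lit 5846006549323635687187710054595856275514754892968, nat_lit 18446744073709555712,
    nat_lit 1, nat_lit 1280, nat_lit 432345564227575904, nat_lit 1]

/-- values -/
def tb2_19 : List ℕ := [nat_lit 69222400, nat_lit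
    3599131035634609851311936945153526910562552279979435234794822925442034980853180126536131647643031080910187437724655015878616312174028648512255003639810713148589072,
    nat_lit
    3196670515523576044934755563308202297086564498088930458479776726656380660551439995003193449537015784313669326802733330199645135496157089201070805121,
    nat_lit
    25773156031408831862286466729172381020260426265842001821493199858667069075695984959713247186892189737279557340632790154477492880323989458976310821128,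
    nat_lit
    4795005773285364067402133344962303445629846747133395687719665089984570990827159992504790174305524053537926421563678508698229802196951420518978036752,
    nat_lit 83076749736558441094852732388642817, nat_lit
    199791907220223502808422222706762643567910281130558153654986045416023791284464999687699590596063497846242022238995965643216599588165362304550174854,
    nat_lit 0, nat_lit 432345564227567777, nat_lit 612489549322395721, nat_lit 36028797018963972]

/-- values -/
def tb2_20 : List ℕ := [nat_lit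
    28793048285076463243328477496342373766277188173536860624973831842576677475850975682803181493944891492146392902086090664114087850198500822068894326399733674341826560,
    nat_lit 23384026197316046646190462206397521022233824215040, nat_lit
    7198262071269166158392738870408301163969419147570394269634302861298890425446188758696199058666144594582595107748967395598956177500576908768450193585913441283997728,
    nat_lit 748288838313422377197036370907997409295852439080960, nat_lit
    1671919588448214643960772407685302272, nat_lit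
    52614058943912518685111907631711776047913081242280, nat_lit
    41538374868278630251616007488538624, nat_lit 524288, nat_lit
    5192296858534836851902533184029184, nat_lit 3245185536584314033210090821003392, nat_lit 1]

/-- values -/
def tb2_21 : List ℕ := [nat_lit
    57586096570152913699974892898380567793532123114264532903689671329431521032595044740083720782129802971518987656110564035253692671698522540792893402814066501892456448,
    nat_lit
    3599131035634609052144308064259515676873661452928860963153698403209420360908998462440966509783031487613491705025282973136504410202070552107955994726204419923380240,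
    nat_lit 759980851412074920050797418576209989877329538580544, nat_lit
    12786682062094304179739022253232809188346257992355721833919106906625522642205759980223398381485177510650513362535079467870219492300401336115372490752,
    nat_lit
    6393341031047152089869511126616404594173128996177860916959553453312761321102879990006386899074032503988386545364557667242906634888437652787348767761,
    nat_lit 2596148429267414426754797503774857, nat_lit
    5846006549323611672814739330865132078623730171904, nat_lit 0, nat_lit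
    2596148429267419002412018895955969, nat_lit 12980742146337090112143699898012161, nat_lit
    36028797018963976, nat_lit 1]

/-- values -/
def tb2_22 : List ℕ := [nat_lit
    14396524142538643992160741289480983466606260844864754479307169393317482629123226514506801882731804528021520119908441993932223215966717436724450244309040194583003136,
    nat_lit
    1649681777917385462689142292889739147940235191295018674729219777000108444635827502428180818510152422310832893896683665156581873057674168460528035299584,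
    nat_lit
    7198262071269166158392738870408301163969419147570394269634302861298890425446188758696199058666145015831761781989593272579292576172057464903765614477344566262497280,
    nat_lit 1684996666696915361311107599650040130745111816298245276017660796928, nat_lit
    7198262071269242079317482555339368364414047717374950075541132473397279320143446847736887155366026552300771623218135695565135682337116601246996063787672741062134288,
    nat_lit
    7198262071269116210415933814532599058413742456909502292064020221760476678934834752748377942416222248435779417648494974486369151369914322710808323014525039535325449,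
    nat_lit 2596148429267414390726000468033664, nat_lit 0, nat_lit
    52572005692665203597905164210536744, nat_lit
    11692013098647225292740800612290985144153773703234, nat_lit 1, nat_lit 1]

/-- values -/
def tb2_23 : List ℕ := [nat_lit
    935774069264985259995088512139994023228364667364894983851777412575291360670867215699465673845368653699138539686807768514125613433438104248501280617899074726372835328,
    nat_lit
    57586096570154575968642965157923933866425043379459017917228677573269930516492906058027207530927211372099413691973842693001318402741278598676551567857516817418305536,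
    nat_lit
    237542648351880820159124681583036561104409020777577951612751863656792359935882186058730192229453734821499757384701964284233983437150092833261394952098627369113289728,
    nat_lit 3369993333393878613107867258326571652835875850716465709572981522432, nat_lit
    57586096570153015993431389652814005705710148976738039673753610175206192385450297744264858428209643916207706189073108887963976917640067577504469818558138179813180672,
    nat_lit
    3599131035634558304999874127489802337629093935217394713942291241438391994453462792397980255673110917229771973444949569422882465203719617912204695037880746954981904,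
    nat_lit 93536104789177973687722736547678245530013381174272, nat_lit 2361183241434823131136,
    nat_lit 23384026197294451883555815858371167193322942973440, nat_lit
    5846006549323801840687183168973792386582403096704, nat_lit 2, nat_lit 1]

/-- values -/
def tb2_24 : List ℕ := [nat_lit
    3685510180489786476798393145496356338786055879312930105836138965083617346086082863426066532938361423643448394579406845060115664124526281020707521698367519481967706112,
    nat_lit
    2074757784440526193682034130755647690494999341450945248056023754885491378700915612331008602680456553821675874562047381308246565537160349956313407379089714579252374178503796608466944,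
    nat_lit
    1842755090244893647573022559765911921041740043106359079998325237924907358454462443699403615612473272861939149635591785780601133952194188710237960679649772853436874752,
    nat_lit
    259344723055069430927386471055287864028516953162836473209901008541985794014258458779415508408968815111676258832458607202700168976013580902605163156637757814464646209745771068162048,
    nat_lit
    2303443862806120025976516605585959600755337803894680546329760773933599667300880391754993199202227628434324871003308025017978638472146597472558823167719955760719400960,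
    nat_lit
    230344386280611705946627819970738990130217505388294884999790654740613419806807805464322589541623320482990930235083227688803271264184095296837039055362394397073605632,
    nat_lit
    57586096570152926486656954992684747532554376347073721249947663685153354951701951365606362987889786354286119198002950718495769567604537221297917200849138203448320512,
    nat_lit 0, nat_lit 2, nat_lit 2, nat_lit 0, nat_lit 0, nat_lit 1]

/-- values -/
def tb2_25 : List ℕ := [nat_lit
    8299031137761987759779905972275560701221465212663043193019254315846358540895298834608087140935640250178457274497801989555833988048163579477897264609783228355219044108781081161891840,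
    nat_lit
    259344723055069488513483041207383216351435816075900969317817223018464537192419022013565718161989491392094431296510442796388811242764927677502602958788277217545697881900894120837124,
    nat_lit
    1037378892220248469972488246534547381109179906016318311305432651954301587675851200100682245472207916882345426380282079646509133344241435378825252523094163799862918084512172048777216,
    nat_lit 691198557808156407386890364609282703361, nat_lit
    518689446110128154439941929304028559991483837764711612009373823928815661257749579026427679732643528840978909664698600476458857104876910946357182610528136932548477704188128403818016,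
    nat_lit
    1636695303948070935006594848413799576108321023021532394741645684048083972440647855182778586746911544900844975079760325118213489057486221325783305130248,
    nat_lit
    3599131035634557905416059687042796720784648521692107578121728980322084684481371960350397686743111436518299112808651818666320012065425747277658846964210881616150561,
    nat_lit 0, nat_lit 664613997892457936451903530140188680, nat_lit
    103845937170696580240726037148733442, nat_lit 1, nat_lit 0, nat_lit 1]

/-- values -/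
def tb2_26 : List ℕ := [nat_lit 1, nat_lit 4, nat_lit 0, nat_lit 1, nat_lit 0, nat_lit 0, nat_lit
    0, nat_lit 0, nat_lit 0, nat_lit 0, nat_lit 0, nat_lit 0, nat_lit 0, nat_lit 1]

/-- values -/
def tb2_27 : List ℕ := [nat_lit 32, nat_lit 65, nat_lit 8, nat_lit 0, nat_lit 6, nat_lit 1,
    nat_lit 0, nat_lit 0, nat_lit 0, nat_lit 0, nat_lit 0, nat_lit 0, nat_lit 0, nat_lit 9,
    nat_lit 1]

/-- values -/
def tb2_28 : List ℕ := [nat_lit 256, nat_lit 72057594037927952, nat_lit
    6393341031047152089869511126616404594173128996177860916959553453312761321102879990006386899074031556935325554936640763689877454191182408307282280513,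
    nat_lit 0, nat_lit 160, nat_lit 2, nat_lit 1, nat_lit 0, nat_lit 0, nat_lit 0, nat_lit 0,
    nat_lit 0, nat_lit 0, nat_lit 2, nat_lit 6]

/-- values -/
def tb2_29 : List ℕ := [nat_lit
    319334449525555169865019634085894170570792201669673206640407558789953902699034250525593274478821712174294791495070799239035590137111137873556540192446878795444981224002141945028636110278208736896336369761943900036369143746937339471692642317758178088451922590309643142654462843332096652157648896,
    nat_lit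
    518689446110359992465602329296741375371903675607669956522193326335347621089881991729317632370575989201185380655042092201216503612771843340941335188173465376323556505696658381619712,
    nat_lit
    79833612381388792466254908521473542642698050417418301660101889697488475674758562631398318619705437387452082764025582344662786505184018439933362408495910690031937303732310578909642147079852947280975083872346908850563345902248821558729376757350159333452549506614687012459842960903105718939418656,
    nat_lit 500844323776945887306203774849352314651847090084978372034360318704579316248060370944,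
    nat_lit
    1037378892220270583033571185259852659227348413460939494856337865365863118537788985609053991850327433151200349310765960346926144058697247406556211154649772136991179782533909420507136,
    nat_lit
    2723119592078151988936871224003115446541700984635776910931447705345535855483181264399583508980823766237457727485210261434330747809073947555812334706029150653769853127306063529413216,
    nat_lit 3794275180128377934137907385222366020089750682460698625264297001390703425894744064,
    nat_lit 2, nat_lit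
    115172193140305929693406282551194573499242272091002572577443281504637713418045342484348579210339446887726693845180586231759626655560867960304504290955021721683493376,
    nat_lit
    17995655178173301793530411088275184398502262747878646012569463652716394806627306486752841801974760656833450612869785716765600192005906134411343244419473632114256016,
    nat_lit 0, nat_lit 2, nat_lit 1]

/-- values -/
def tb2_30 : List ℕ := [nat_lit
    921377545122447034766765304438974926214737199894531147712419492831863938892495181170825404201276197959452242309796280117394123769814872418343466354632699980741083136,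
    nat_lit
    3800682373630092329771707055481725833851164632007077548336034292453924055989486766096570856032086956145800781599324679941388562910255023730501280047087427655819100416,
    nat_lit
    7198262071269165359225109989514289930280528320519819997993178339066275805502007094601033920806145422535066049266088914801572718815549435629364016425589069322388496,
    nat_lit 1, nat_lit
    57586096570152913699974892898380567793532123114264532903689671329431521032595044740083720782129802971518987656109067457577065805510327036019308994315074097345725960,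
    nat_lit
    17995655178172789726872205655437486412345465315223181458518926032168577077392905217775779718180556870291086159867292819300228491392478370238113374443520844472778836,
    nat_lit 0, nat_lit 1, nat_lit 0, nat_lit 0, nat_lit 0, nat_lit 0, nat_lit 0, nat_lit 4,
    nat_lit 1]

/-- values -/
def tb2 : List (List ℕ) := [tb2_0, tb2_1, tb2_2, tb2_3, tb2_4, tb2_5, tb2_6, tb2_7, tb2_8, tb2_9,
    tb2_10, tb2_11, tb2_12, tb2_13, tb2_14, tb2_15, tb2_16, tb2_17, tb2_18, tb2_19, tb2_20,
    tb2_21, tb2_22, tb2_23, tb2_24, tb2_25, tb2_26, tb2_27, tb2_28, tb2_29, tb2_30]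

theorem v2 : chkV 90 ds2 ds3 xs2 tb2 = true := by decide +kernel

theorem p2 : chkP ds2 ds3 tb2 gb2 = true := by decide +kernel

theorem c2 : chkC 90 ds2 gb2 r2 = true := by decide +kernel

theorem lv2 : LvOk 90 ds2 ds3 xs2 r2 := ⟨_, _, v2, p2, c2⟩

end Vale.Agent.P236X.Ce
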